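import Mathlib

/-!
P196, module B: a family of elements indexed by ordered three-cycles that satisfies the conjugation
rule and the identities on four letters is the image of a homomorphism of the alternating group.
-/

namespace Vale.Agent.P196.B

open Equiv

variable {α : Type*} [DecidableEq α] {G : Type*} [Group G]

/-- Three distinct letters. -/
def Dist3 (a b c : α) : Prop := a ≠ b ∧ a ≠ c ∧ b ≠ c

/-- The cycle `a ↦ b ↦ c ↦ a`. -/
def cyc3 (a b c : α) : Perm α := swap a b * swap b c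

lemma cyc3_fst {a b c : α} (h : Dist3 a b c) : cyc3 a b c a = b := by
  obtain ⟨h1, h2, h3⟩ := h
  simp [cyc3, swap_apply_of_ne_of_ne h1 h2]

lemma cyc3_snd {a b c : α} (h : Dist3 a b c) : cyc3 a b c b = c := by
  obtain ⟨h1, h2, h3⟩ := h
  simp [cyc3, swap_apply_of_ne_of_ne h2.symm h3.symm]

lemma cyc3_thd (a b c : α) : cyc3 a b c c = a := by simp [cyc3]

lemma cyc3_of_ne {a b c x : α} (ha : x ≠ a) (hb : x ≠ b) (hc : x ≠ c) : cyc3 a b c x = x := by
  simp [cyc3, swap_apply_of_ne_of_ne hb hc, swap_apply_of_ne_of_ne ha hb]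

omit [DecidableEq α] in
lemma Dist3.rot {a b c : α} (h : Dist3 a b c) : Dist3 b c a :=
  ⟨h.2.2, h.1.symm, h.2.1.symm⟩

omit [DecidableEq α] in
lemma Dist3.flip {a b c : α} (h : Dist3 a b c) : Dist3 a c b :=
  ⟨h.2.1, h.1, h.2.2.symm⟩

omit [DecidableEq α] in
lemma Dist3.map {a b c : α} (h : Dist3 a b c) (σ : Perm α) : Dist3 (σ a) (σ b) (σ c) :=
  ⟨σ.injective.ne h.1, σ.injective.ne h.2.1, σ.injective.ne h.2.2⟩

lemma cyc3_eq {a b c : α} (h : Dist3 a b c) {σ : Perm α} (ha : σ a = b) (hb : σ b = c)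
    (hc : σ c = a) (ho : ∀ x, x ≠ a → x ≠ b → x ≠ c → σ x = x) : σ = cyc3 a b c := by
  ext x
  by_cases h1 : x = a
  · rw [h1, ha, cyc3_fst h]
  by_cases h2 : x = b
  · rw [h2, hb, cyc3_snd h]
  by_cases h3 : x = c
  · rw [h3, hc, cyc3_thd]
  rw [ho x h1 h2 h3, cyc3_of_ne h1 h2 h3]

lemma cyc3_rot {a b c : α} (h : Dist3 a b c) : cyc3 a b c = cyc3 b c a :=
  cyc3_eq h.rot (cyc3_snd h) (cyc3_thd a b c) (cyc3_fst h) fun _ h1 h2 h3 => cyc3_of_ne h3 h1 h2

lemma cyc3_conj {a b c : α} (h : Dist3 a b c) (σ : Perm α) :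
    σ * cyc3 a b c * σ⁻¹ = cyc3 (σ a) (σ b) (σ c) := by
  refine cyc3_eq (h.map σ) ?_ ?_ ?_ fun x h1 h2 h3 => ?_
  · simp [cyc3_fst h]
  · simp [cyc3_snd h]
  · simp [cyc3_thd]
  · have e : ∀ y : α, x ≠ σ y → σ.symm x ≠ y := fun y hy hxy => hy (by rw [← hxy]; simp)
    simp [Perm.inv_def, cyc3_of_ne (e a h1) (e b h2) (e c h3)]

lemma cyc3_mem_alternating [Fintype α] {a b c : α} (h : Dist3 a b c) :
    cyc3 a b c ∈ alternatingGroup α := by
  rw [Perm.mem_alternatingGroup, cyc3, Perm.sign_mul, Perm.sign_swap h.1, Perm.sign_swap h.2.2]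
  norm_num

lemma cyc3_mul_flip {a b c : α} (h : Dist3 a b c) : cyc3 a b c * cyc3 a c b = 1 := by
  ext x
  by_cases h1 : x = a
  · subst h1; simp [Perm.mul_apply, cyc3_fst h.flip, cyc3_thd]
  by_cases h2 : x = c
  · subst h2; simp [Perm.mul_apply, cyc3_snd h.flip, cyc3_snd h]
  by_cases h3 : x = b
  · subst h3; simp [Perm.mul_apply, cyc3_thd, cyc3_fst h]
  simp [Perm.mul_apply, cyc3_of_ne h1 h2 h3, cyc3_of_ne h1 h3 h2]

lemma cyc3_sq {a b c : α} (h : Dist3 a b c) : cyc3 a b c * cyc3 a b c = cyc3 a c b := by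
  refine cyc3_eq h.flip ?_ ?_ ?_ fun x h1 h2 h3 => ?_
  · simp [Perm.mul_apply, cyc3_fst h, cyc3_snd h]
  · simp [Perm.mul_apply, cyc3_fst h, cyc3_thd]
  · simp [Perm.mul_apply, cyc3_thd, cyc3_snd h]
  · simp [Perm.mul_apply, cyc3_of_ne h1 h3 h2]

lemma cyc3_mix {a b c n : α} (h1 : Dist3 a b c) (h2 : Dist3 n a b) (h3 : n ≠ c) :
    cyc3 c a n * cyc3 n a b = cyc3 a b c := by
  have hca : Dist3 c a n := ⟨h1.2.1.symm, h3.symm, h2.1.symm⟩
  refine cyc3_eq h1 ?_ ?_ ?_ fun x ha hb hc => ?_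
  · rw [Perm.mul_apply, cyc3_snd h2, cyc3_of_ne h1.2.2 h1.1.symm h2.2.1.symm]
  · rw [Perm.mul_apply, cyc3_thd, cyc3_thd]
  · rw [Perm.mul_apply, cyc3_of_ne h3.symm h1.2.1.symm h1.2.2.symm, cyc3_fst hca]
  · by_cases hn : x = n
    · subst hn; rw [Perm.mul_apply, cyc3_fst h2, cyc3_snd hca]
    · rw [Perm.mul_apply, cyc3_of_ne hn ha hb, cyc3_of_ne hc ha hn]

/-- Elements of a group indexed by three-cycles, with the relations of the alternating group. -/
structure CycleFamily (α : Type*) [DecidableEq α] (G : Type*) [Group G] where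
  t : α → α → α → G
  rot : ∀ a b c, Dist3 a b c → t a b c = t b c a
  flip : ∀ a b c, Dist3 a b c → t a b c * t a c b = 1
  sq : ∀ a b c, Dist3 a b c → t a b c * t a b c = t a c b
  conj : ∀ a b c x y z, Dist3 a b c → Dist3 x y z →
    t a b c * t x y z * (t a b c)⁻¹ = t (cyc3 a b c x) (cyc3 a b c y) (cyc3 a b c z)
  mix : ∀ a b c n, Dist3 a b c → Dist3 n a b → n ≠ c → t c a n * t n a b = t a b c

namespace CycleFamily

variable (F : CycleFamily α G)

/-- The element together with its permutation. -/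
def pair (a b c : α) : G × Perm α := (F.t a b c, cyc3 a b c)

variable {F}

lemma pair_rot {a b c : α} (h : Dist3 a b c) : F.pair a b c = F.pair b c a :=
  Prod.ext (F.rot a b c h) (cyc3_rot h)

lemma pair_flip {a b c : α} (h : Dist3 a b c) : F.pair a b c * F.pair a c b = 1 :=
  Prod.ext (F.flip a b c h) (cyc3_mul_flip h)

lemma pair_sq {a b c : α} (h : Dist3 a b c) : F.pair a b c * F.pair a b c = F.pair a c b :=
  Prod.ext (F.sq a b c h) (cyc3_sq h)

lemma pair_conj {a b c x y z : α} (h : Dist3 a b c) (h' : Dist3 x y z) :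
    F.pair a b c * F.pair x y z =
      F.pair (cyc3 a b c x) (cyc3 a b c y) (cyc3 a b c z) * F.pair a b c := by
  refine Prod.ext ?_ ?_
  · show F.t a b c * F.t x y z =
      F.t (cyc3 a b c x) (cyc3 a b c y) (cyc3 a b c z) * F.t a b c
    rw [← F.conj a b c x y z h h', inv_mul_cancel_right]
  · show cyc3 a b c * cyc3 x y z =
      cyc3 (cyc3 a b c x) (cyc3 a b c y) (cyc3 a b c z) * cyc3 a b c
    rw [← cyc3_conj h', inv_mul_cancel_right]

lemma pair_mix {a b c n : α} (h1 : Dist3 a b c) (h2 : Dist3 n a b) (h3 : n ≠ c) :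
    F.pair c a n * F.pair n a b = F.pair a b c :=
  Prod.ext (F.mix a b c n h1 h2 h3) (cyc3_mix h1 h2 h3)

variable (F)

/-- The pairs of three-cycles inside `s`. -/
def gensOn (s : Finset α) : Set (G × Perm α) :=
  {g | ∃ a ∈ s, ∃ b ∈ s, ∃ c ∈ s, Dist3 a b c ∧ g = F.pair a b c}

/-- The subgroup they generate. -/
def sub (s : Finset α) : Subgroup (G × Perm α) := Subgroup.closure (F.gensOn s)

variable {F}

lemma pair_mem {s : Finset α} {a b c : α} (ha : a ∈ s) (hb : b ∈ s) (hc : c ∈ s)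
    (h : Dist3 a b c) : F.pair a b c ∈ F.sub s :=
  Subgroup.subset_closure ⟨a, ha, b, hb, c, hc, h, rfl⟩

lemma fixes_of_notMem {s : Finset α} {x : α} (hx : x ∉ s) {g : G × Perm α} (hg : g ∈ F.sub s) :
    g.2 x = x := by
  induction hg using Subgroup.closure_induction with
  | mem g hg =>
    obtain ⟨a, ha, b, hb, c, hc, -, rfl⟩ := hg
    exact cyc3_of_ne (fun e => hx (e ▸ ha)) (fun e => hx (e ▸ hb)) (fun e => hx (e ▸ hc))
  | one => rfl
  | mul g h _ _ ihg ihh => rw [Prod.snd_mul, Perm.mul_apply, ihh, ihg]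
  | inv g _ ih =>
    rw [Prod.snd_inv, Perm.inv_def, Equiv.symm_apply_eq, ih]

/-- The normal forms over a new letter `n`. -/
def Form (F : CycleFamily α G) (s : Finset α) (n : α) (g : G × Perm α) : Prop :=
  g ∈ F.sub s ∨
    ∃ a ∈ s, ∃ b ∈ s, a ≠ b ∧ ∃ h ∈ F.sub s, g = F.pair n a b * h

lemma form_mul_right {s : Finset α} {n : α} {g h : G × Perm α} (hg : Form F s n g)
    (hh : h ∈ F.sub s) : Form F s n (g * h) := by
  rcases hg with hg | ⟨a, ha, b, hb, hab, h', hh', rfl⟩
  · exact Or.inl (mul_mem hg hh)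
  · exact Or.inr ⟨a, ha, b, hb, hab, h' * h, mul_mem hh' hh, mul_assoc _ _ _⟩

lemma form_pair {s : Finset α} {n a b : α} (ha : a ∈ s) (hb : b ∈ s) (hab : a ≠ b) :
    Form F s n (F.pair n a b) :=
  Or.inr ⟨a, ha, b, hb, hab, 1, one_mem _, (mul_one _).symm⟩

lemma form_same_first {s : Finset α} {n a y c : α} (hn : n ∉ s) (ha : a ∈ s) (hy : y ∈ s)
    (hc : c ∈ s) (hay : a ≠ y) (hac : a ≠ c) :
    Form F s n (F.pair n a y * F.pair n a c) := by
  have hna : n ≠ a := fun e => hn (e ▸ ha)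
  have hny : n ≠ y := fun e => hn (e ▸ hy)
  have hnc : n ≠ c := fun e => hn (e ▸ hc)
  have hd : Dist3 n a y := ⟨hna, hny, hay⟩
  by_cases hyc : y = c
  · subst hyc
    rw [pair_sq hd]
    exact form_pair hy ha hay.symm
  · have hd' : Dist3 n y a := hd.flip
    have hac' : Dist3 a c y := ⟨hac, hay, fun e => hyc e.symm⟩
    have e : F.pair n a y * F.pair n a c = F.pair n y a * F.pair a c y := by
      rw [← pair_mix (n := n) hac' ⟨hna, hnc, hac⟩ hny, ← pair_rot hd', ← mul_assoc,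
        pair_sq hd']
    rw [e]
    exact form_mul_right (form_pair hy ha hay.symm) (pair_mem ha hc hy hac')

lemma form_gen_new {s : Finset α} {n b y : α} (hn : n ∉ s) (hb : b ∈ s) (hy : y ∈ s)
    (hby : b ≠ y) {g : G × Perm α} (hg : Form F s n g) :
    Form F s n (F.pair n b y * g) := by
  have hnb : n ≠ b := fun e => hn (e ▸ hb)
  have hny : n ≠ y := fun e => hn (e ▸ hy)
  rcases hg with hg | ⟨a, ha, c, hc, hac, h, hh, rfl⟩
  · exact form_mul_right (form_pair hb hy hby) hg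
  rw [← mul_assoc]
  refine form_mul_right ?_ hh
  have hna : n ≠ a := fun e => hn (e ▸ ha)
  have hnc : n ≠ c := fun e => hn (e ▸ hc)
  by_cases hba : b = a
  · subst hba
    exact form_same_first hn hb hy hc hby hac
  by_cases hya : y = a
  · subst hya
    by_cases hbc : b = c
    · subst hbc
      rw [pair_flip ⟨hnb, hny, hby⟩]
      exact Or.inl (one_mem _)
    · have hd : Dist3 y c b := ⟨hac, hby.symm, fun e => hbc e.symm⟩
      rw [pair_rot ⟨hnb, hny, hby⟩, pair_mix hd ⟨hny, hnc, hac⟩ hnb]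
      exact Or.inl (pair_mem hy hc hb hd)
  · -- general position
    have hd : Dist3 b y a := ⟨hby, hba, hya⟩
    have hσa : cyc3 b y a a = b := cyc3_thd b y a
    have hσn : cyc3 b y a n = n := cyc3_of_ne hnb hny hna
    have hz : cyc3 b y a c ∈ s := by
      by_cases h1 : c = b
      · rw [h1, cyc3_fst hd]; exact hy
      by_cases h2 : c = y
      · rw [h2, cyc3_snd hd]; exact ha
      rw [cyc3_of_ne h1 h2 hac.symm]; exact hc
    have hbz : b ≠ cyc3 b y a c := by
      intro e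
      exact hac ((cyc3 b y a).injective (hσa.trans e))
    have e : F.pair n b y * F.pair n a c =
        F.pair n b a * F.pair n b (cyc3 b y a c) * F.pair b y a := by
      have e1 : F.pair n b y = F.pair n b a * F.pair b y a := by
        have hnab : Dist3 n a b := ⟨hna, hnb, fun e => hba e.symm⟩
        have e2 : F.pair n b a * F.pair n a b = 1 := pair_flip hnab.flip
        rw [← pair_mix (n := n) hd ⟨hnb, hny, hby⟩ hna, ← pair_rot hnab, ← mul_assoc, e2, one_mul]
      rw [e1, mul_assoc, pair_conj hd ⟨hna, hnc, hac⟩, hσa, hσn, ← mul_assoc]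
    rw [e]
    exact form_mul_right (form_same_first hn hb ha hz hba hbz) (pair_mem hb hy ha hd)

lemma form_gen_old {s : Finset α} {n x y z : α} (hn : n ∉ s) (hx : x ∈ s) (hy : y ∈ s)
    (hz : z ∈ s) (hd : Dist3 x y z) {g : G × Perm α} (hg : Form F s n g) :
    Form F s n (F.pair x y z * g) := by
  rcases hg with hg | ⟨a, ha, c, hc, hac, h, hh, rfl⟩
  · exact Or.inl (mul_mem (pair_mem hx hy hz hd) hg)
  have hmem : ∀ w ∈ s, cyc3 x y z w ∈ s := by
    intro w hw
    by_cases h1 : w = x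
    · rw [h1, cyc3_fst hd]; exact hy
    by_cases h2 : w = y
    · rw [h2, cyc3_snd hd]; exact hz
    by_cases h3 : w = z
    · rw [h3, cyc3_thd]; exact hx
    rw [cyc3_of_ne h1 h2 h3]; exact hw
  have hσn : cyc3 x y z n = n :=
    cyc3_of_ne (fun e => hn (e ▸ hx)) (fun e => hn (e ▸ hy)) (fun e => hn (e ▸ hz))
  rw [← mul_assoc, pair_conj hd (⟨fun e => hn (e ▸ ha), fun e => hn (e ▸ hc), hac⟩ : Dist3 n a c), hσn, mul_assoc]
  exact Or.inr ⟨_, hmem a ha, _, hmem c hc, (cyc3 x y z).injective.ne hac, _,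
    mul_mem (pair_mem hx hy hz hd) hh, rfl⟩

lemma form_gen {s : Finset α} {n : α} (hn : n ∉ s) {x : G × Perm α}
    (hx : x ∈ F.gensOn (insert n s)) {g : G × Perm α} (hg : Form F s n g) :
    Form F s n (x * g) := by
  obtain ⟨a, ha, b, hb, c, hc, hd, rfl⟩ := hx
  rw [Finset.mem_insert] at ha hb hc
  by_cases h1 : a = n
  · subst h1
    exact form_gen_new hn (hb.resolve_left hd.1.symm) (hc.resolve_left hd.2.1.symm) hd.2.2 hg
  by_cases h2 : b = n
  · subst h2
    rw [pair_rot hd]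
    exact form_gen_new hn (hc.resolve_left hd.2.2.symm) (ha.resolve_left h1)
      hd.2.1.symm hg
  by_cases h3 : c = n
  · subst h3
    rw [← pair_rot hd.rot.rot]
    exact form_gen_new hn (ha.resolve_left h1) (hb.resolve_left h2) hd.1 hg
  exact form_gen_old hn (ha.resolve_left h1) (hb.resolve_left h2) (hc.resolve_left h3) hd hg

lemma form_of_mem {s : Finset α} {n : α} (hn : n ∉ s) {g : G × Perm α}
    (hg : g ∈ F.sub (insert n s)) : Form F s n g := by
  have hinv : ∀ x ∈ F.gensOn (insert n s), x⁻¹ ∈ F.gensOn (insert n s) := by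
    rintro _ ⟨a, ha, b, hb, c, hc, hd, rfl⟩
    exact ⟨a, ha, c, hc, b, hb, hd.flip, inv_eq_of_mul_eq_one_right (pair_flip hd)⟩
  suffices h : ∀ g ∈ F.sub (insert n s), ∀ y, Form F s n y → Form F s n (g * y) by
    simpa using h g hg 1 (Or.inl (one_mem _))
  intro g hg
  induction hg using Subgroup.closure_induction_left with
  | one => intro y hy; simpa using hy
  | mul_left x hx g _ ih =>
    intro y hy
    rw [mul_assoc]
    exact form_gen hn hx (ih y hy)
  | inv_mul_cancel x hx g _ ih =>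
    intro y hy
    rw [mul_assoc]
    exact form_gen hn (hinv x hx) (ih y hy)

lemma eq_one_of_snd (s : Finset α) : ∀ g ∈ F.sub s, g.2 = 1 → g = 1 := by
  induction s using Finset.induction with
  | empty =>
    intro g hg _
    have : F.gensOn ∅ = ∅ := by
      ext g; simp [gensOn]
    rw [sub, this, Subgroup.closure_empty] at hg
    simpa using hg
  | @insert n s hn ih =>
    intro g hg h2
    rcases form_of_mem hn hg with hg' | ⟨a, ha, b, hb, hab, h, hh, rfl⟩
    · exact ih g hg' h2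
    · exfalso
      have hna : n ≠ a := fun e => hn (e ▸ ha)
      have hnb : n ≠ b := fun e => hn (e ▸ hb)
      have e := Equiv.ext_iff.1 h2 n
      simp only [Prod.snd_mul, Perm.mul_apply, fixes_of_notMem hn hh, Perm.one_apply] at e
      exact hna ((cyc3_fst (a := n) (b := a) (c := b) ⟨hna, hnb, hab⟩).symm.trans e).symm

variable [Fintype α]

lemma alternating_le : alternatingGroup α ≤
    Subgroup.closure {σ : Perm α | ∃ a b c, Dist3 a b c ∧ σ = cyc3 a b c} := by
  rw [← Perm.closure_three_cycles_eq_alternating]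
  refine Subgroup.closure_mono fun σ hσ => ?_
  have hσ : Perm.IsThreeCycle σ := hσ
  obtain ⟨a, ha⟩ : σ.support.Nonempty := by
    rw [← Finset.card_pos, hσ.card_support]; norm_num
  have h1 : σ a ≠ a := Perm.mem_support.1 ha
  have hcube : σ (σ (σ a)) = a := by
    have := congrArg (fun p : Perm α => p a) (pow_orderOf_eq_one σ)
    simpa [hσ.orderOf, pow_succ, Perm.mul_apply] using this
  have h2 : σ (σ a) ≠ a := fun e => h1 (by rw [e] at hcube; exact hcube)
  have h3 : σ (σ a) ≠ σ a := fun e => h1 (σ.injective e)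
  refine ⟨a, σ a, σ (σ a), ⟨h1.symm, h2.symm, h3.symm⟩, cyc3_eq ⟨h1.symm, h2.symm, h3.symm⟩
    rfl rfl hcube fun x hxa hxb hxc => ?_⟩
  by_contra hx
  have hsub : ({a, σ a, σ (σ a), x} : Finset α) ⊆ σ.support := by
    intro y hy
    simp only [Finset.mem_insert, Finset.mem_singleton] at hy
    rcases hy with rfl | rfl | rfl | rfl <;> simp only [Perm.mem_support]
    · exact h1
    · exact h3
    · exact fun e => h3 (σ.injective e)
    · exact hx
  have := Finset.card_le_card hsub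
  rw [hσ.card_support, Finset.card_insert_of_notMem, Finset.card_insert_of_notMem,
    Finset.card_insert_of_notMem, Finset.card_singleton] at this
  · omega
  · simp [Ne.symm hxc]
  · simp [h3.symm, Ne.symm hxb]
  · simp [h1.symm, h2.symm, Ne.symm hxa]

variable (F) in
/-- The homomorphism of the alternating group. -/
theorem exists_hom : ∃ φ : alternatingGroup α →* G,
    ∀ a b c (h : Dist3 a b c), φ ⟨cyc3 a b c, cyc3_mem_alternating h⟩ = F.t a b c := by
  classical
  have hex : ∀ σ ∈ alternatingGroup α, ∃ g ∈ F.sub Finset.univ, g.2 = σ := by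
    intro σ hσ
    have h := alternating_le hσ
    clear hσ
    induction h using Subgroup.closure_induction with
    | mem σ hσ =>
      obtain ⟨a, b, c, hd, rfl⟩ := hσ
      exact ⟨_, pair_mem (by simp) (by simp) (by simp) hd, rfl⟩
    | one => exact ⟨1, one_mem _, rfl⟩
    | mul x y _ _ ihx ihy =>
      obtain ⟨g, hg, rfl⟩ := ihx
      obtain ⟨h, hh, rfl⟩ := ihy
      exact ⟨g * h, mul_mem hg hh, rfl⟩
    | inv x _ ih =>
      obtain ⟨g, hg, rfl⟩ := ih
      exact ⟨g⁻¹, inv_mem hg, rfl⟩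
  choose L hL hL2 using hex
  have huniq : ∀ g ∈ F.sub Finset.univ, ∀ g' ∈ F.sub Finset.univ, g.2 = g'.2 → g = g' := by
    intro g hg g' hg' h
    have := eq_one_of_snd Finset.univ (g⁻¹ * g') (mul_mem (inv_mem hg) hg') (by simp [h])
    exact inv_mul_eq_one.1 this
  refine ⟨{ toFun := fun σ => (L σ.1 σ.2).1, map_one' := ?_, map_mul' := ?_ }, ?_⟩
  · rw [huniq _ (hL _ _) 1 (one_mem _) (by rw [hL2]; rfl)]; rfl
  · intro σ τ
    rw [huniq _ (hL _ _) _ (mul_mem (hL σ.1 σ.2) (hL τ.1 τ.2))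
      (by rw [hL2, Prod.snd_mul, hL2, hL2]; rfl), Prod.fst_mul]
  · intro a b c h
    show (L (cyc3 a b c) _).1 = _
    rw [huniq _ (hL _ _) (F.pair a b c) (pair_mem (by simp) (by simp) (by simp) h) (by rw [hL2]; rfl)]
    rfl

end CycleFamily

end Vale.Agent.P196.B
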