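import Vale.Agent.P196.B.TowerHom

/-!
P196, module B: a cover with colourings and translations is a cover by towers, and the presentation
statement follows from the cover and kernel statements.
-/

namespace Vale.Agent.P196.B

open SFT TopologicalSpace Equiv

variable {S : SFT} {k : ℕ} (C : Cover S k) (hk : 12 ≤ k)
  (hfree : ∀ x : S.X, ∀ v : V, S.act v x = x → v = 0)
include hk hfree

omit hk hfree C in
/-- The constant family, as an indicator of everything. -/
lemma indicator_univ {Y A : Type*} [TopologicalSpace Y] [Group A] (a : A) :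
    LocallyConstant.mulIndicator (LocallyConstant.const Y a) (U := Set.univ) isClopen_univ =
      LocallyConstant.const Y a :=
  LocallyConstant.ext fun y => by simp

lemma T_mem_range {q : Clopens S.X} {P : Cfg k} (hP : Placed q P) {x : S.X} (hx : x ∈ q) :
    ∃ (U : S.Tower k) (_ : 5 ≤ U.cells.card),
      T C hk q P ∈ Set.range (towerHom C hk U hfree) := by
  classical
  obtain ⟨g, hg⟩ := exists_fresh (colours P) 2 (by have := card_colours P; omega)
  let c : Fin 5 → Fin k × V := ![P 0, P 1, P 2, (g 0, 0), (g 1, 0)]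
  have hc : ∀ i j, ∀ y ∈ q, ∀ z ∈ q, (c i).1 = (c j).1 →
      S.act (c i).2 y = S.act (c j).2 z → i = j := by
    have hP0 : ∀ (l : Fin 2) (i : Fin 3), g l ≠ (P i).1 := fun l i e =>
      hg l (by rw [e]; exact mem_colours P i)
    have h01 : g 0 ≠ g 1 := g.injective.ne (by decide)
    intro i j y hy z hz h1 h2
    fin_cases i <;> fin_cases j <;>
      simp only [c, Fin.isValue, Fin.mk_one, Fin.zero_eta, Fin.reduceFinMk, Matrix.cons_val] at h1 h2 ⊢
    all_goals first
      | rfl
      | exact absurd h1 (hP0 _ _) | exact absurd h1.symm (hP0 _ _)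
      | exact absurd h1 h01 | exact absurd h1.symm h01
      | (have := hP _ _ y hy z hz h1 h2; simp at this)
  have hinj : Function.Injective c := fun i j e =>
    hc i j x hx x hx (by rw [e]) (by rw [e])
  let F : Finset (Fin k × V) := Finset.univ.image c
  have hU : Function.Injective (S.place (k := k) (q : Set S.X) F) := by
    rintro ⟨⟨y, hy⟩, ⟨s, hs⟩⟩ ⟨⟨z, hz⟩, ⟨t, ht⟩⟩ e
    obtain ⟨i, -, rfl⟩ := Finset.mem_image.1 hs
    obtain ⟨j, -, rfl⟩ := Finset.mem_image.1 ht
    simp only [SFT.place, Prod.mk.injEq] at e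
    obtain rfl := hc i j y hy z hz e.1 e.2
    obtain rfl := (S.act (c i).2).injective e.2
    rfl
  let U : S.Tower k := ⟨q, q.2, F, hU⟩
  have hcard : 5 ≤ U.cells.card := by
    show 5 ≤ F.card
    rw [Finset.card_image_of_injective _ hinj]
    simp
  have h35 : 3 ≤ 5 := by norm_num
  let e : Fin 3 → U.cells := fun i =>
    ⟨c (Fin.castLE h35 i), Finset.mem_image.2 ⟨_, Finset.mem_univ _, rfl⟩⟩
  have he : Function.Injective e := fun i j h =>
    Fin.castLE_injective h35 (hinj (congrArg Subtype.val h))
  have hd : Dist3 (e 0) (e 1) (e 2) :=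
    ⟨he.ne (by decide), he.ne (by decide), he.ne (by decide)⟩
  refine ⟨U, hcard, LocallyConstant.const U.base ⟨_, cyc3_mem_alternating hd⟩, ?_⟩
  rw [← indicator_univ, towerHom_indicator C hk hfree isClopen_univ, phi_cyc C hk U hfree _ hd]
  congr 1
  · apply SetLike.coe_injective
    ext y
    show (y ∈ Subtype.val '' (Set.univ : Set U.base) ∧ y ∈ U.base) ↔ y ∈ q
    exact ⟨fun h => h.2, fun h => ⟨⟨⟨y, h⟩, trivial, rfl⟩, h⟩⟩
  · funext i
    fin_cases i <;> rfl

/-- The cover by towers. -/
noncomputable def towerCover : S.Cover k where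
  H := C.E
  proj := C.proj
  central := ker_le_center C hk hfree
  lift U _ := towerHom C hk U hfree
  proj_lift _ _ σ := proj_towerHom C hk hfree σ
  generated := by
    rw [eq_top_iff, ← closure_lifts C hk, Subgroup.closure_le]
    rintro _ ⟨q, P, hP, rfl⟩
    by_cases hq : ∃ x, x ∈ q
    · obtain ⟨x, hx⟩ := hq
      obtain ⟨U, hU, h⟩ := T_mem_range C hk hfree hP hx
      exact Subgroup.subset_closure ⟨U, hU, h⟩
    · have e : q = ⊥ := le_bot_iff.1 fun y hy => hq ⟨y, hy⟩
      rw [e, T_bot]
      exact one_mem _

omit hk hfree C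

/-- Finite presentability of the full group from the cover and kernel statements. -/
theorem presentation_of (hCover : CoverStatement)
    (hKernel : ∀ S : SFT, S.KernelStatement) : PresentationStatement := by
  intro S O hmf hr hco hcy k hk
  obtain ⟨C, hC⟩ := hCover S hmf hr hco k hk
  have : Group.IsFinitelyPresented (towerCover C hk hmf.free).H := hC
  have h := (towerCover C hk hmf.free).finitelyPresented_range
    (hKernel S O hmf hcy k (by omega) _)
  have e : C.proj.range = S.fullGroup k := range_proj C
  rw [← e]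
  exact h

end Vale.Agent.P196.B
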