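import Vale.Agent.P196.Defs

/-!
P196, module B: the interface of the construction half (a finitely presented group over the full
group with exact colourings and covariant translations). `B/Bridge` turns it into a cover by towers
(`Cover/Tower`), whose kernel is bounded there.
-/

namespace Vale.Agent.P196.B

open SFT

variable (S : SFT) (k : ℕ)

/-- Local even colourings, as a group. -/
abbrev Colour : Type := LocallyConstant S.X (alternatingGroup (Fin k))

/-- The colouring of a local even colouring. -/
def colourPerm (f : Colour S k) : Equiv.Perm (Fin k × S.X) :=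
  S.colouring fun x => (f x : Equiv.Perm (Fin k))

/-- The colouring `f` moved by `e`. -/
def Colour.shift {S : SFT} {k : ℕ} (f : Colour S k) (e : V) : Colour S k where
  toFun x := f (S.act (-e) x)
  isLocallyConstant := f.isLocallyConstant.comp_continuous <| by
    refine Continuous.subtype_mk ?_ _
    exact continuous_pi fun u => (continuous_apply (u + -e)).comp continuous_subtype_val

/-- A group over the full group in which colourings and translations are lifted with the relations
that are visible in one colour pattern. -/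
structure Cover where
  E : Type
  [grp : Group E]
  proj : E →* Equiv.Perm (Fin k × S.X)
  col : Colour S k →* E
  tr : (Fin k → V) → E
  tr_add : ∀ s t : Fin k → V, ∑ i, s i = 0 → ∑ i, t i = 0 → tr (s + t) = tr s * tr t
  proj_col : ∀ f, proj (col f) = colourPerm S k f
  proj_tr : ∀ t : Fin k → V, ∑ i, t i = 0 → proj (tr t) = S.translation t
  generated : Subgroup.closure (Set.range col ∪ tr '' {t | ∑ i, t i = 0}) = ⊤
  /-- constants permute the colours of translations -/
  const_tr : ∀ (σ : alternatingGroup (Fin k)) (t : Fin k → V), ∑ i, t i = 0 →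
    col (LocallyConstant.const S.X σ) * tr t * (col (LocallyConstant.const S.X σ))⁻¹ =
      tr fun i => t ((σ : Equiv.Perm (Fin k)).symm i)
  /-- a translation constant on the colours moved by `f` shifts `f` -/
  covariant : ∀ (f : Colour S k) (t : Fin k → V) (e : V), ∑ i, t i = 0 →
    (∀ i, (∃ x, (f x : Equiv.Perm (Fin k)) i ≠ i) → t i = e) →
    tr t * col f * (tr t)⁻¹ = col (f.shift e)

attribute [instance] Cover.grp

/-- Module B, first half: a finitely presented cover. -/
def CoverStatement : Prop :=
  ∀ (S : SFT), S.MinimalFree → S.Rigid → S.CoinvariantsModTwoTrivial →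
    ∀ k : ℕ, 12 ≤ k → ∃ C : Cover S k, Group.IsFinitelyPresented C.E

variable {S}

lemma isLocal_of_colour {k : ℕ} (f : Colour S k) :
    S.IsLocal fun x => (f x : Equiv.Perm (Fin k)) := by
  classical
  have hnb : ∀ x : S.X, ∃ U : Finset V, ∀ y, (∀ u ∈ U, y.1 u = x.1 u) → f y = f x := by
    intro x
    obtain ⟨W, hW, hWf⟩ := isOpen_induced_iff.1 (f.isLocallyConstant.isOpen_fiber (f x))
    have hx : x.1 ∈ W := by
      have : x ∈ Subtype.val ⁻¹' W := by rw [hWf]; rfl
      exact this
    obtain ⟨U, t, ht, hsub⟩ := isOpen_pi_iff.1 hW x.1 hx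
    refine ⟨U, fun y hy => ?_⟩
    have : y ∈ Subtype.val ⁻¹' W := hsub fun u hu => by
      rw [hy u hu]
      exact (ht u hu).2
    rw [hWf] at this
    exact this
  choose U hU using hnb
  have hopen : ∀ x : S.X, IsOpen {y : S.X | ∀ u ∈ U x, y.1 u = x.1 u} := by
    intro x
    have : {y : S.X | ∀ u ∈ U x, y.1 u = x.1 u} =
        ⋂ u ∈ U x, (fun y : S.X => y.1 u) ⁻¹' {x.1 u} := by
      ext y; simp
    rw [this]
    exact isOpen_biInter_finset fun u _ =>
      (isOpen_discrete {x.1 u}).preimage ((continuous_apply u).comp continuous_subtype_val)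
  have hclosed : IsClosed (S.carrier) := by
    have : S.carrier = ⋂ v : V, (fun x : V → S.A => S.window x v) ⁻¹' {q | S.allowed q} := by
      ext x; simp [SFT.carrier]
    rw [this]
    refine isClosed_iInter fun v => (isClosed_discrete _).preimage ?_
    exact continuous_pi fun p => continuous_apply _
  have : CompactSpace S.X := isCompact_iff_compactSpace.1 hclosed.isCompact
  obtain ⟨F, hF⟩ := isCompact_univ.elim_finite_subcover _ hopen
    fun x _ => Set.mem_iUnion.2 ⟨x, fun _ _ => rfl⟩
  let r : ℕ := (F.biUnion U).sup fun u => max u.1.natAbs u.2.natAbs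
  refine ⟨r, fun y z hyz => congrArg Subtype.val ?_⟩
  obtain ⟨x, hxF, hyx⟩ := Set.mem_iUnion₂.1 (hF (Set.mem_univ y))
  rw [hU x y hyx, hU x z fun u hu => ?_]
  rw [← hyx u hu]
  refine (hyz u ?_).symm
  have h : max u.1.natAbs u.2.natAbs ≤ r :=
    Finset.le_sup (f := fun u : V => max u.1.natAbs u.2.natAbs)
      (Finset.mem_biUnion.2 ⟨x, hxF, hu⟩)
  simp only [SFT.box, Finset.mem_Icc]
  refine ⟨⟨?_, ?_⟩, ?_, ?_⟩ <;> omega

/-- A local map is locally constant. -/
lemma isLocallyConstant_of_isLocal {β : Type} {f : S.X → β} (h : S.IsLocal f) :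
    IsLocallyConstant f := by
  obtain ⟨r, hr⟩ := h
  refine (IsLocallyConstant.iff_exists_open f).2 fun x =>
    ⟨⋂ u ∈ SFT.box r, (fun y : S.X => y.1 u) ⁻¹' {x.1 u}, ?_, by simp, fun y hy => ?_⟩
  · exact isOpen_biInter_finset fun u _ =>
      (isOpen_discrete {x.1 u}).preimage ((continuous_apply u).comp continuous_subtype_val)
  · refine hr y x fun u hu => ?_
    simp only [Set.mem_iInter, Set.mem_preimage, Set.mem_singleton_iff] at hy
    exact hy u hu

/-- The range of a cover is the full group. -/
lemma range_proj {k : ℕ} (C : Cover S k) : C.proj.range = S.fullGroup k := by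
  rw [MonoidHom.range_eq_map, ← C.generated, MonoidHom.map_closure, SFT.fullGroup]
  congr 1
  ext g
  simp only [Set.image_union, Set.mem_union, Set.mem_image, Set.mem_range, SFT.gens,
    Set.mem_ofPred_eq]
  constructor
  · rintro (⟨_, ⟨f, rfl⟩, rfl⟩ | ⟨_, ⟨t, ht, rfl⟩, rfl⟩)
    · exact Or.inl ⟨fun x => (f x : Equiv.Perm (Fin k)), isLocal_of_colour f,
        fun x => Equiv.Perm.mem_alternatingGroup.1 (f x).2, by rw [C.proj_col]; rfl⟩
    · exact Or.inr ⟨t, ht, C.proj_tr t ht⟩
  · rintro (⟨c, hc, hsign, rfl⟩ | ⟨t, ht, rfl⟩)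
    · let f : Colour S k :=
        ⟨fun x => ⟨c x, Equiv.Perm.mem_alternatingGroup.2 (hsign x)⟩,
          isLocallyConstant_of_isLocal (by
            obtain ⟨r, hr⟩ := hc
            exact ⟨r, fun x y hxy => Subtype.ext (hr x y hxy)⟩)⟩
      exact Or.inl ⟨_, ⟨f, rfl⟩, C.proj_col f⟩
    · exact Or.inr ⟨_, ⟨t, ht, rfl⟩, C.proj_tr t ht⟩

end Vale.Agent.P196.B
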