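import Vale.Agent.P196.B.Presentation
import Vale.Agent.P196.Cover.VanishMain

/-!
P196, module B: finite presentability.
-/

namespace Vale.Agent.P196.B

/-- Module B. -/
theorem presentation : PresentationStatement :=
  presentation_of_vanish fun S => SFT.vanishStatement S

end Vale.Agent.P196.B
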