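import Vale.Agent.P196.B.Recolour

/-!
P196, module B: three-cycles of arbitrary placed pieces, their conjugation rule, and the centrality of
the kernel of the projection.
-/

namespace Vale.Agent.P196.B

open SFT TopologicalSpace Equiv

variable {S : SFT} {k : ℕ}

/-- The configuration shifted colourwise. -/
def shiftCfg (t : Fin k → V) (P : Cfg k) : Cfg k := fun i => ((P i).1, t (P i).1 + (P i).2)

/-- The point of a piece. -/
def pt (P : Cfg k) (i : Fin 3) (x : S.X) : Fin k × S.X := ((P i).1, S.act (P i).2 x)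

lemma shiftCfg_shiftCfg (s t : Fin k → V) (P : Cfg k) :
    shiftCfg s (shiftCfg t P) = shiftCfg (s + t) P := by
  funext i; simp [shiftCfg, add_assoc]

lemma shiftCfg_zero (P : Cfg k) : shiftCfg 0 P = P := by
  funext i; simp [shiftCfg]

lemma trans_trans (v w : V) (q : Clopens S.X) : trans v (trans w q) = trans (v + w) q := by
  apply SetLike.coe_injective
  ext y
  show S.act (-w) (S.act (-v) y) ∈ q ↔ S.act (-(v + w)) y ∈ q
  rw [← act_add, neg_add, add_comm (-w)]

lemma Placed.image {q : Clopens S.X} {P P' : Cfg k} (hP : Placed q P)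
    (g : Equiv.Perm (Fin k × S.X)) (h : ∀ i, ∀ x ∈ q, g (pt P i x) = pt P' i x) : Placed q P' := by
  intro i j x hx y hy hc hv
  have e : g (pt P i x) = g (pt P j y) := by
    rw [h i x hx, h j y hy]; exact Prod.ext hc hv
  have this : pt P i x = pt P j y := g.injective e
  simp only [pt, Prod.mk.injEq] at this
  exact hP i j x hx y hy this.1 this.2

lemma colourPerm_pt {f : Colour S k} {q : Clopens S.X} {P : Cfg k} {D : Fin 3 → Fin k}
    (hf : Sends f q P D) (i : Fin 3) {x : S.X} (hx : x ∈ q) :
    colourPerm S k f (pt P i x) = pt (recol D P) i x :=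
  Prod.ext (hf i x hx) rfl

lemma translation_pt (t : Fin k → V) (P : Cfg k) (i : Fin 3) (x : S.X) :
    S.translation t (pt P i x) = pt (shiftCfg t P) i x :=
  Prod.ext rfl (act_add _ _ x).symm

variable (C : Cover S k) (hk : 12 ≤ k)
include hk

omit C in
lemma exists_sends {q : Clopens S.X} {P : Cfg k} (hP : Placed q P) :
    ∃ fD : Colour S k × (Fin 3 → Fin k), Function.Injective fD.2 ∧ Sends fD.1 q P fD.2 := by
  obtain ⟨R, -⟩ := exists_rec hk P ∅ (by
    have := card_colours P
    rw [Finset.union_empty]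
    omega)
  exact ⟨(R.map q, R.F), R.F_inj, R.sends hP⟩

open Classical in
/-- The lift of the three-cycle of placed pieces. -/
noncomputable def T (q : Clopens S.X) (P : Cfg k) : C.E :=
  if h : ∃ fD : Colour S k × (Fin 3 → Fin k), Function.Injective fD.2 ∧ Sends fD.1 q P fD.2 then
    (C.col h.choose.1)⁻¹ * tdist C hk q (recol h.choose.2 P) * C.col h.choose.1
  else 1

lemma T_eq {q : Clopens S.X} {P : Cfg k} {f : Colour S k} {D : Fin 3 → Fin k}
    (hD : Function.Injective D) (hf : Sends f q P D) :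
    T C hk q P = (C.col f)⁻¹ * tdist C hk q (recol D P) * C.col f := by
  have hex : ∃ fD : Colour S k × (Fin 3 → Fin k), Function.Injective fD.2 ∧ Sends fD.1 q P fD.2 :=
    ⟨(f, D), hD, hf⟩
  rw [T, dif_pos hex]
  obtain ⟨h0, hs0⟩ := hex.choose_spec
  set f0 := hex.choose.1
  set D0 := hex.choose.2
  have hh : Sends (f * f0⁻¹) q (recol D0 P) D := hs0.inv.mul (by exact hf)
  have e := conj_sends C hk (P := recol D0 P) h0 hD hh
  rw [recol_recol, map_mul, map_inv] at e
  rw [← e]
  group

lemma T_distinct {q : Clopens S.X} {P : Cfg k} (hP : Distinct P) :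
    T C hk q P = tdist C hk q P := by
  rw [T_eq C hk (f := 1) (D := fun i => (P i).1) hP (fun i x _ => rfl), recol_self, map_one,
    inv_one, one_mul, mul_one]

lemma T_sup {A B : Clopens S.X} (h : Disjoint A B) {P : Cfg k} (hP : Placed (A ⊔ B) P) :
    T C hk (A ⊔ B) P = T C hk A P * T C hk B P := by
  obtain ⟨⟨f, D⟩, hD, hf⟩ := exists_sends hk hP
  rw [T_eq C hk hD hf, T_eq C hk hD (hf.mono le_sup_left), T_eq C hk hD (hf.mono le_sup_right),
    tdist_sup C hk h]
  group

lemma T_bot (P : Cfg k) : T C hk ⊥ P = 1 := by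
  obtain ⟨⟨f, D⟩, hD, hf⟩ :=
    exists_sends hk (q := (⊥ : Clopens S.X)) (P := P) fun _ _ x hx => absurd hx (fun h => h)
  rw [T_eq C hk hD hf, tdist_bot]
  group

lemma T_col {q : Clopens S.X} {P : Cfg k} (hP : Placed q P) {h : Colour S k}
    {D : Fin 3 → Fin k} (hh : Sends h q P D) :
    C.col h * T C hk q P * (C.col h)⁻¹ = T C hk q (recol D P) := by
  obtain ⟨⟨f, D'⟩, hD', hf⟩ :=
    exists_sends hk (hP.image (colourPerm S k h) fun i x hx => colourPerm_pt hh i hx)
  rw [T_eq C hk hD' hf, T_eq C hk hD' (hh.mul hf), recol_recol, map_mul]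
  group

omit hk in
lemma tr_comm {s t : Fin k → V} (hs : ∑ i, s i = 0) (ht : ∑ i, t i = 0) :
    Commute (C.tr s) (C.tr t) := by
  show C.tr s * C.tr t = C.tr t * C.tr s
  rw [← C.tr_add s t hs ht, ← C.tr_add t s ht hs, add_comm]

lemma tr_tdist {q : Clopens S.X} {P : Cfg k} (hP : Distinct P) {t : Fin k → V}
    (ht : ∑ i, t i = 0) :
    C.tr t * tdist C hk q P * (C.tr t)⁻¹ = tdist C hk q (shiftCfg t P) := by
  obtain ⟨d, hd⟩ := exists_comp hk P
  set u := comp d (ext P) with hu
  have hus : ∑ i, u i = 0 := comp_sum _ _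
  have huP : ∀ i, u (P i).1 = (P i).2 := fun i => by
    rw [hu, comp_of_ne (fun e => hd (by rw [← e]; exact mem_colours P i)), ext_apply hP]
  have hts : ∑ i, (t + u) i = 0 := by simp [Finset.sum_add_distrib, ht, hus]
  rw [tdist_eq C hk hP hus huP,
    tdist_eq C hk (P := shiftCfg t P) hP hts (fun i => by simp [shiftCfg, huP]),
    C.tr_add t u ht hus]
  simp only [shiftCfg]
  group

omit hk C in
/-- The translation by `e` at `a`, compensated at `d`. -/
def term (a d : Fin k) (e : V) : Fin k → V := comp d fun i => if i = a then e else 0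

omit hk C in
lemma term_sum (a d : Fin k) (e : V) : ∑ i, term a d e i = 0 := comp_sum _ _

omit hk C in
lemma term_apply {a d c : Fin k} (e : V) (hc : c ≠ d) :
    term a d e c = if c = a then e else 0 := comp_of_ne hc

omit hk C in
lemma term_self {a d : Fin k} (e : V) (h : a ≠ d) : term a d e a = e := by
  rw [term_apply e h, if_pos rfl]

omit hk C in
lemma sum_term {w : Fin k → V} (hw : ∑ i, w i = 0) (d : Fin k) :
    ∑ a ∈ Finset.univ.erase d, term a d (w a) = w := by
  funext c
  rw [Finset.sum_apply]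
  by_cases hc : c = d
  · subst hc
    have h : ∀ a ∈ Finset.univ.erase c, term a c (w a) c = -w a := by
      intro a ha
      simp only [term, comp, if_true]
      rw [Finset.sum_eq_single a (fun j _ hj => if_neg hj) (fun h => absurd ha h), if_pos rfl]
    rw [Finset.sum_congr rfl h, Finset.sum_neg_distrib]
    rw [← Finset.add_sum_erase _ _ (Finset.mem_univ c)] at hw
    exact (eq_neg_of_add_eq_zero_left hw).symm
  · have h : ∀ a ∈ Finset.univ.erase d, term a d (w a) c = if c = a then w a else 0 :=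
      fun a _ => term_apply _ hc
    rw [Finset.sum_congr rfl h, Finset.sum_eq_single c (fun j _ hj => if_neg (Ne.symm hj))
      (fun h' => absurd (Finset.mem_erase.2 ⟨hc, Finset.mem_univ c⟩) h'), if_pos rfl]

omit hk C in
lemma Rec.map_shift {P : Cfg k} (R : Rec P) (q : Clopens S.X) {t : Fin k → V}
    (R' : Rec (shiftCfg t P)) (hF : R'.F = R.F) (ha : R'.a = R.a) (hb : R'.b = R.b)
    (ht : ∑ i, t i = 0) (C : Cover S k)
    (hconst : ∀ i, t (R.F i) = t (P i).1 ∧ t (R.a i) = t (P i).1 ∧ t (R.b i) = t (P i).1) :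
    C.tr t * C.col (R.map q) * (C.tr t)⁻¹ = C.col (R'.map q) := by
  have key : ∀ i, C.tr t * C.col (ind (trans (P i).2 q) (dt (P i).1 (R.F i) (R.a i) (R.b i))) *
      (C.tr t)⁻¹ = C.col (ind (trans (shiftCfg t P i).2 q)
        (dt (shiftCfg t P i).1 (R'.F i) (R'.a i) (R'.b i))) := by
    intro i
    rw [tr_conj_ind C ht (e := t (P i).1) (fun c hc => ?_), trans_trans, hF, ha, hb]
    · rfl
    · rcases dt_moves hc with rfl | rfl | rfl | rfl
      · rfl
      · exact (hconst i).1
      · exact (hconst i).2.1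
      · exact (hconst i).2.2
  simp only [Rec.map, map_mul]
  rw [← key 0, ← key 1, ← key 2]
  group

lemma tr_commute_term {q : Clopens S.X} {P : Cfg k} (hP : Placed q P) {a d : Fin k} (e : V)
    (ha : a ∉ colours P) (hd : d ∉ colours P) :
    Commute (C.tr (term a d e)) (T C hk q P) := by
  obtain ⟨R, hF, hA, hB⟩ := exists_rec hk P {a, d} (by
    have := card_colours P
    have := Finset.card_union_le (colours P) {a, d}
    have : ({a, d} : Finset (Fin k)).card ≤ 2 := Finset.card_le_two
    omega)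
  have hzero : ∀ c, c ≠ a → c ≠ d → term a d e c = 0 := fun c h1 h2 => by
    rw [term_apply e h2, if_neg h1]
  have hR : ∀ i, term a d e (R.F i) = 0 ∧ term a d e (R.a i) = 0 ∧ term a d e (R.b i) = 0 ∧
      term a d e (P i).1 = 0 := by
    intro i
    have h1 := hF i; have h2 := hA i; have h3 := hB i
    simp only [Finset.mem_insert, Finset.mem_singleton, not_or] at h1 h2 h3
    exact ⟨hzero _ h1.1 h1.2, hzero _ h2.1 h2.2, hzero _ h3.1 h3.2,
      hzero _ (fun h => ha (h ▸ mem_colours P i)) fun h => hd (h ▸ mem_colours P i)⟩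
  have hz : shiftCfg (term a d e) P = P := by
    funext i; simp [shiftCfg, (hR i).2.2.2]
  let R' : Rec (shiftCfg (term a d e) P) :=
    ⟨R.F, R.a, R.b, R.F_inj, R.F_fresh, R.a_fresh, R.b_fresh, R.aF, R.bF, R.ab⟩
  have e1 := R.map_shift q R' rfl rfl rfl (term_sum a d e) C fun i =>
    ⟨(hR i).1.trans (hR i).2.2.2.symm, (hR i).2.1.trans (hR i).2.2.2.symm,
      (hR i).2.2.1.trans (hR i).2.2.2.symm⟩
  have e2 : R'.map q = R.map q := by
    simp only [Rec.map, R', shiftCfg, (hR 0).2.2.2, (hR 1).2.2.2, (hR 2).2.2.2, zero_add]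
  rw [e2] at e1
  have e3 := tr_tdist C hk (q := q) (P := recol R.F P) R.F_inj (term_sum a d e)
  have e4 : shiftCfg (term a d e) (recol R.F P) = recol R.F P := by
    funext i; simp [shiftCfg, recol, (hR i).1]
  rw [e4] at e3
  rw [T_eq C hk R.F_inj (R.sends hP)]
  have c1 : Commute (C.tr (term a d e)) (C.col (R.map q)) := mul_inv_eq_iff_eq_mul.1 e1
  have c2 : Commute (C.tr (term a d e)) (tdist C hk q (recol R.F P)) := mul_inv_eq_iff_eq_mul.1 e3
  exact (c1.inv_right.mul_right c2).mul_right c1

lemma tr_commute_zero {q : Clopens S.X} {P : Cfg k} (hP : Placed q P) {w : Fin k → V}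
    (hw : ∑ i, w i = 0) (h0 : ∀ i, w (P i).1 = 0) : Commute (C.tr w) (T C hk q P) := by
  obtain ⟨d, hd⟩ := exists_comp hk P
  rw [← sum_term hw d]
  have key : ∀ s : Finset (Fin k), ∑ i, (∑ a ∈ s, term a d (w a)) i = 0 ∧
      Commute (C.tr (∑ a ∈ s, term a d (w a))) (T C hk q P) := by
    intro s
    induction s using Finset.induction with
    | empty => exact ⟨by simp, by rw [Finset.sum_empty, tr_zero]; exact Commute.one_left _⟩
    | @insert a s has ih =>
      rw [Finset.sum_insert has]
      refine ⟨by simp only [Pi.add_apply, Finset.sum_add_distrib, term_sum, ih.1, add_zero], ?_⟩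
      rw [C.tr_add _ _ (term_sum _ _ _) ih.1]
      refine Commute.mul_left ?_ ih.2
      by_cases ha : a ∈ colours P
      · obtain ⟨i, -, rfl⟩ := Finset.mem_image.1 ha
        have : term (P i).1 d (w (P i).1) = 0 := by
          rw [h0 i]
          funext c
          simp [term, comp]
        rw [this, tr_zero]
        exact Commute.one_left _
      · exact tr_commute_term C hk hP _ ha hd
  exact (key _).2

lemma tr_T_term {q : Clopens S.X} {P : Cfg k} (hP : Placed q P) {a d : Fin k} (e : V)
    (hd : d ∉ colours P) :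
    C.tr (term a d e) * T C hk q P * (C.tr (term a d e))⁻¹ =
      T C hk q (shiftCfg (term a d e) P) := by
  classical
  obtain ⟨g, hg⟩ := exists_fresh (colours P ∪ {d}) 7 (by
    have := card_colours P
    have := Finset.card_union_le (colours P) {d}
    simp only [Finset.card_singleton] at this
    omega)
  have hgP : ∀ l, g l ∉ colours P ∧ g l ≠ d := fun l => by
    have := hg l; simp only [Finset.mem_union, Finset.mem_singleton, not_or] at this; exact this
  have hc : (3 : ℕ) ≤ 7 := by norm_num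
  let aux : Bool → Fin 7 := fun b => if b then 3 else 5
  let aux' : Bool → Fin 7 := fun b => if b then 4 else 6
  let cls : Fin 3 → Bool := fun i => decide ((P i).1 = a)
  have hF : ∀ (j : Fin 3) (l : Fin 7), 3 ≤ (l : ℕ) → g l ≠ g (Fin.castLE hc j) := by
    intro j l hl e
    have := congrArg Fin.val (g.injective e)
    simp at this; omega
  let R : Rec P :=
    { F := fun i => g (Fin.castLE hc i)
      a := fun i => g (aux (cls i))
      b := fun i => g (aux' (cls i))
      F_inj := g.injective.comp (Fin.castLE_injective hc)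
      F_fresh := fun _ => (hgP _).1
      a_fresh := fun _ => (hgP _).1
      b_fresh := fun _ => (hgP _).1
      aF := fun i j => hF j _ (by cases cls i <;> simp [aux])
      bF := fun i j => hF j _ (by cases cls i <;> simp [aux'])
      ab := fun i => g.injective.ne (by cases cls i <;> simp [aux, aux']) }
  let M : Finset (Fin k) := {a, g 3, g 4} ∪
    (Finset.univ.filter fun i => (P i).1 = a).image fun i => R.F i
  set t := comp d (fun c => if c ∈ M then e else 0) with htdef
  have hts : ∑ i, t i = 0 := comp_sum _ _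
  have htval : ∀ c, c ≠ d → t c = if c ∈ M then e else 0 := fun c hc => comp_of_ne hc
  have hPd : ∀ i, (P i).1 ≠ d := fun i h => hd (h ▸ mem_colours P i)
  have hP_mem : ∀ i, (P i).1 ∈ M ↔ (P i).1 = a := by
    intro i
    refine ⟨fun h => ?_, fun h => by simp [M, h]⟩
    simp only [M, Finset.mem_union, Finset.mem_insert, Finset.mem_singleton,
      Finset.mem_image] at h
    rcases h with (h | h | h) | ⟨j, -, h⟩
    · exact h
    · exact absurd (h ▸ mem_colours P i) (hgP _).1
    · exact absurd (h ▸ mem_colours P i) (hgP _).1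
    · exact absurd (h ▸ mem_colours P i) (R.F_fresh j)
  have htP : ∀ i, t (P i).1 = term a d e (P i).1 := by
    intro i
    rw [htval _ (hPd i), term_apply e (hPd i)]
    by_cases h : (P i).1 = a
    · rw [if_pos h, if_pos ((hP_mem i).2 h)]
    · rw [if_neg h, if_neg (fun h' => h ((hP_mem i).1 h'))]
  have hgm : ∀ l : Fin 7, (l = 5 ∨ l = 6) → a ∈ colours P → g l ∉ M := by
    intro l hl ha h
    simp only [M, Finset.mem_union, Finset.mem_insert, Finset.mem_singleton,
      Finset.mem_image] at h
    rcases h with (h | h | h) | ⟨j, -, h⟩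
    · exact (hgP l).1 (h ▸ ha)
    · have := g.injective h; rcases hl with rfl | rfl <;> simp at this
    · have := g.injective h; rcases hl with rfl | rfl <;> simp at this
    · exact hF j l (by rcases hl with rfl | rfl <;> simp) h.symm
  by_cases haP : a ∈ colours P
  swap
  · rw [(tr_commute_term C hk hP e haP hd).eq, mul_inv_cancel_right]
    congr 1
    funext i
    have : term a d e (P i).1 = 0 := by
      rw [term_apply e (hPd i), if_neg fun h => haP (by rw [← h]; exact mem_colours P i)]
    simp [shiftCfg, this]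
  have hconst : ∀ i, t (R.F i) = t (P i).1 ∧ t (R.a i) = t (P i).1 ∧ t (R.b i) = t (P i).1 := by
    intro i
    rw [htval _ (hPd i), htval _ (hgP _).2, htval _ (hgP _).2, htval _ (hgP _).2]
    by_cases h : (P i).1 = a
    · rw [if_pos ((hP_mem i).2 h)]
      refine ⟨if_pos ?_, if_pos ?_, if_pos ?_⟩
      · exact Finset.mem_union_right _ (Finset.mem_image.2 ⟨i, by simp [h], rfl⟩)
      · simp [M, R, cls, aux, h]
      · simp [M, R, cls, aux', h]
    · rw [if_neg (fun h' => h ((hP_mem i).1 h'))]
      refine ⟨if_neg ?_, if_neg ?_, if_neg ?_⟩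
      · intro h'
        simp only [M, Finset.mem_union, Finset.mem_insert, Finset.mem_singleton,
          Finset.mem_image] at h'
        rcases h' with (h' | h' | h') | ⟨j, hj, h'⟩
        · exact R.F_fresh i (show g (Fin.castLE hc i) ∈ colours P by rw [h']; exact haP)
        · exact hF i 3 (by simp) h'.symm
        · exact hF i 4 (by simp) h'.symm
        · obtain rfl := R.F_inj h'
          exact h (by simpa using hj)
      · exact hgm _ (by simp [cls, aux, h]) haP
      · exact hgm _ (by simp [cls, aux', h]) haP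
  let R' : Rec (shiftCfg t P) :=
    ⟨R.F, R.a, R.b, R.F_inj, R.F_fresh, R.a_fresh, R.b_fresh, R.aF, R.bF, R.ab⟩
  have e1 := R.map_shift q R' rfl rfl rfl hts C hconst
  have e3 := tr_tdist C hk (q := q) (P := recol R.F P) R.F_inj hts
  have e4 : shiftCfg t (recol R.F P) = recol R.F (shiftCfg t P) := by
    funext i; simp [shiftCfg, recol, (hconst i).1]
  rw [e4] at e3
  have hP' : Placed q (shiftCfg t P) :=
    hP.image (S.translation t) fun i x _ => translation_pt t P i x
  have ht' : C.tr t * T C hk q P * (C.tr t)⁻¹ = T C hk q (shiftCfg t P) := by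
    rw [T_eq C hk R.F_inj (R.sends hP), T_eq C hk R'.F_inj (R'.sends hP'),
      show recol R'.F (shiftCfg t P) = recol R.F (shiftCfg t P) from rfl, ← e3, ← e1]
    group
  have hw : ∑ i, (term a d e - t) i = 0 := by simp [Finset.sum_sub_distrib, term_sum, hts]
  have hcomm := tr_commute_zero C hk hP hw fun i => by simp [htP i]
  have e5 : C.tr (term a d e) = C.tr t * C.tr (term a d e - t) := by
    rw [← C.tr_add t _ hts hw, add_sub_cancel]
  have e6 : shiftCfg (term a d e) P = shiftCfg t P := by
    funext i; simp [shiftCfg, htP i]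
  rw [e6, ← ht', e5, mul_assoc (C.tr t) (C.tr _), hcomm.eq, mul_inv_rev]
  group

lemma tr_T {q : Clopens S.X} {P : Cfg k} (hP : Placed q P) {s : Fin k → V}
    (hs : ∑ i, s i = 0) :
    C.tr s * T C hk q P * (C.tr s)⁻¹ = T C hk q (shiftCfg s P) := by
  obtain ⟨d, hd⟩ := exists_comp hk P
  rw [← sum_term hs d]
  have key : ∀ A : Finset (Fin k), ∑ i, (∑ a ∈ A, term a d (s a)) i = 0 ∧
      C.tr (∑ a ∈ A, term a d (s a)) * T C hk q P * (C.tr (∑ a ∈ A, term a d (s a)))⁻¹ =
        T C hk q (shiftCfg (∑ a ∈ A, term a d (s a)) P) := by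
    intro A
    induction A using Finset.induction with
    | empty => exact ⟨by simp, by simp [tr_zero, shiftCfg_zero]⟩
    | @insert a A haA ih =>
      rw [Finset.sum_insert haA]
      refine ⟨by simp only [Pi.add_apply, Finset.sum_add_distrib, term_sum, ih.1, add_zero], ?_⟩
      rw [C.tr_add _ _ (term_sum _ _ _) ih.1, ← shiftCfg_shiftCfg]
      have h2 := ih.2
      set u := ∑ b ∈ A, term b d (s b)
      have hP' : Placed q (shiftCfg u P) :=
        hP.image (S.translation u) fun i x _ => translation_pt u P i x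
      rw [← tr_T_term C hk hP' (a := a) (d := d) (s a) hd, ← h2]
      group
  exact (key _).2

/-! ### Conjugation by every element and the centre -/

/-- `g` carries the pieces of `P` over `q`, and their lifts, to those of `P'`. -/
def Step (g : C.E) (q : Clopens S.X) (P P' : Cfg k) : Prop :=
  (∀ i, ∀ x ∈ q, C.proj g (pt P i x) = pt P' i x) ∧
    ∀ q' ≤ q, g * T C hk q' P * g⁻¹ = T C hk q' P'

/-- `g` acts locally by such steps. -/
def Good (g : C.E) : Prop :=
  ∀ (P : Cfg k) (q : Clopens S.X), Placed q P → ∀ x ∈ q,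
    ∃ Q : Clopens S.X, x ∈ Q ∧ Q ≤ q ∧ ∃ P', Step C hk g Q P P'

lemma good_mul {g h : C.E} (hg : Good C hk g) (hh : Good C hk h) : Good C hk (g * h) := by
  intro P q hP x hx
  obtain ⟨Q, hxQ, hQ, P', h1, h2⟩ := hh P q hP x hx
  obtain ⟨Q', hxQ', hQ', P'', h3, h4⟩ :=
    hg P' Q ((hP.mono hQ).image (C.proj h) h1) x hxQ
  refine ⟨Q', hxQ', hQ'.trans hQ, P'', fun i y hy => ?_, fun q' hq' => ?_⟩
  · rw [map_mul, Perm.mul_apply, h1 i y (hQ' hy), h3 i y hy]
  · rw [← h4 q' hq', ← h2 q' (hq'.trans hQ')]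
    group

lemma good_one : Good C hk 1 := fun P q _ x hx =>
  ⟨q, hx, le_rfl, P, fun i y _ => by simp, fun q' _ => by simp⟩

lemma good_col (f : Colour S k) : Good C hk (C.col f) := by
  intro P q hP x hx
  let W : Fin 3 → Clopens S.X := fun i =>
    ⟨(fun y => f (S.act (P i).2 y)) ⁻¹' {f (S.act (P i).2 x)},
      (f.isLocallyConstant.comp_continuous (continuous_act _)).isClopen_fiber _⟩
  refine ⟨q ⊓ (W 0 ⊓ (W 1 ⊓ W 2)), ⟨hx, rfl, rfl, rfl⟩, inf_le_left,
    recol (fun i => (f (S.act (P i).2 x) : Perm (Fin k)) (P i).1) P, ?_, ?_⟩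
  · intro i y hy
    rw [C.proj_col]
    refine colourPerm_pt (q := q ⊓ (W 0 ⊓ (W 1 ⊓ W 2))) (fun j z hz => ?_) i hy
    have hW : f (S.act (P j).2 z) = f (S.act (P j).2 x) := by
      obtain ⟨-, h0, h1, h2⟩ := hz
      fin_cases j
      · exact h0
      · exact h1
      · exact h2
    rw [hW]
  · intro q' hq'
    refine T_col C hk (hP.mono (hq'.trans inf_le_left)) fun j z hz => ?_
    have hW : f (S.act (P j).2 z) = f (S.act (P j).2 x) := by
      obtain ⟨-, h0, h1, h2⟩ := hq' hz
      fin_cases j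
      · exact h0
      · exact h1
      · exact h2
    rw [hW]

lemma good_tr {t : Fin k → V} (ht : ∑ i, t i = 0) : Good C hk (C.tr t) := by
  intro P q hP x hx
  refine ⟨q, hx, le_rfl, shiftCfg t P, fun i y _ => ?_, fun q' hq' => tr_T C hk (hP.mono hq') ht⟩
  rw [C.proj_tr t ht, translation_pt]

lemma good_all (g : C.E) : Good C hk g := by
  suffices h : Good C hk g ∧ Good C hk g⁻¹ from h.1
  have hg : g ∈ Subgroup.closure (Set.range C.col ∪ C.tr '' {t | ∑ i, t i = 0}) := by
    rw [C.generated]; exact Subgroup.mem_top g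
  induction hg using Subgroup.closure_induction with
  | mem g hg =>
    rcases hg with ⟨f, rfl⟩ | ⟨t, ht, rfl⟩
    · exact ⟨good_col C hk f, by rw [← map_inv]; exact good_col C hk _⟩
    · refine ⟨good_tr C hk ht, ?_⟩
      rw [← tr_neg C ht]
      refine good_tr C hk ?_
      simp only [Set.mem_ofPred_eq] at ht
      simp [ht]
  | one => exact ⟨good_one C hk, by rw [inv_one]; exact good_one C hk⟩
  | mul g h _ _ ihg ihh =>
    exact ⟨good_mul C hk ihg.1 ihh.1, by rw [mul_inv_rev]; exact good_mul C hk ihh.2 ihg.2⟩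
  | inv g _ ih => exact ⟨ih.2, by rw [inv_inv]; exact ih.1⟩

/-- The conjugation rule. -/
theorem conj_T (hfree : ∀ x : S.X, ∀ v : V, S.act v x = x → v = 0) (g : C.E) {q : Clopens S.X}
    {P P' : Cfg k} (hP : Placed q P) (hg : ∀ i, ∀ x ∈ q, C.proj g (pt P i x) = pt P' i x) :
    g * T C hk q P * g⁻¹ = T C hk q P' := by
  suffices h : ∀ Q, g * T C hk (q ⊓ Q) P * g⁻¹ = T C hk (q ⊓ Q) P' by simpa using h ⊤
  have hP' : Placed q P' := hP.image _ hg
  refine clopen_induction (p := fun Q => g * T C hk (q ⊓ Q) P * g⁻¹ = T C hk (q ⊓ Q) P') ?_ ?_ ?_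
  · rw [inf_bot_eq, T_bot, T_bot]; group
  · intro A B hAB hA hB
    have hd : Disjoint (q ⊓ A) (q ⊓ B) := hAB.mono inf_le_right inf_le_right
    rw [inf_sup_left, T_sup C hk hd (hP.mono (sup_le inf_le_left inf_le_left)),
      T_sup C hk hd (hP'.mono (sup_le inf_le_left inf_le_left)), ← hA, ← hB]
    group
  · intro x
    by_cases hx : x ∈ q
    · obtain ⟨Q, hxQ, hQq, P'', h1, h2⟩ := good_all C hk g P q hP x hx
      have e : P'' = P' := by
        funext i
        have h := (h1 i x hxQ).symm.trans (hg i x hx)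
        simp only [pt, Prod.mk.injEq] at h
        refine Prod.ext h.1 ?_
        have h3 : S.act (-(P' i).2 + (P'' i).2) x = x := by
          rw [act_add, h.2, act_neg_act]
        exact (neg_add_eq_zero.1 (hfree x _ h3)).symm
      exact ⟨Q, hxQ, fun Q' hQ' => e ▸ h2 _ (inf_le_right.trans hQ')⟩
    · refine ⟨qᶜ, hx, fun Q' hQ' => ?_⟩
      have : q ⊓ Q' = ⊥ := le_bot_iff.1 ((inf_le_inf_left q hQ').trans_eq inf_compl_eq_bot)
      rw [this, T_bot, T_bot]; group

/-- The configuration of three colours without translation. -/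
def zeroCfg (a b c : Fin k) : Cfg k := ![(a, 0), (b, 0), (c, 0)]

omit C hk in
lemma zeroCfg_distinct {a b c : Fin k} (h : Dist3 a b c) : Distinct (zeroCfg a b c) := by
  obtain ⟨h1, h2, h3⟩ := h
  intro i j e
  fin_cases i <;> fin_cases j <;>
    simp [zeroCfg, h1, h1.symm, h2, h2.symm, h3, h3.symm] at e ⊢

/-- All lifts of three-cycles of placed pieces. -/
def lifts : Set C.E := {g | ∃ q P, Placed q P ∧ g = T C hk q P}

lemma col_alt3_eq {a b c : Fin k} (h : Dist3 a b c) (Q : Clopens S.X) :
    C.col (ind Q (alt3 a b c)) = T C hk Q (zeroCfg a b c) := by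
  rw [T_distinct C hk (zeroCfg_distinct h),
    tdist_eq C hk (zeroCfg_distinct h) (t := 0) (by simp) (fun i => by fin_cases i <;> rfl),
    tr_zero]
  simp [zeroCfg]

lemma col_mem (f : Colour S k) : C.col f ∈ Subgroup.closure (lifts C hk) := by
  rw [← restr_top f]
  refine clopen_induction (p := fun Q => C.col (restr f Q) ∈ Subgroup.closure (lifts C hk))
    ?_ ?_ ?_ ⊤
  · rw [restr_bot, map_one]; exact one_mem _
  · intro A B hAB hA hB
    rw [restr_sup f hAB, map_mul]; exact mul_mem hA hB
  · intro x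
    refine ⟨⟨f ⁻¹' {f x}, f.isLocallyConstant.isClopen_fiber _⟩, rfl, fun Q hQ => ?_⟩
    have e : restr f Q = ind Q (f x) := by
      apply LocallyConstant.ext
      intro y
      by_cases hy : y ∈ Q
      · rw [restr_of_mem f hy, ind_of_mem hy]; exact hQ hy
      · rw [restr_of_notMem f hy, ind_of_notMem hy]
    rw [e]
    have key : ∀ σ ∈ Subgroup.closure {σ : Perm (Fin k) | ∃ a b c, Dist3 a b c ∧ σ = cyc3 a b c},
        ∃ hσ : σ ∈ alternatingGroup (Fin k),
          C.col (ind Q ⟨σ, hσ⟩) ∈ Subgroup.closure (lifts C hk) := by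
      intro σ hσ
      induction hσ using Subgroup.closure_induction with
      | mem σ hσ =>
        obtain ⟨a, b, c, hd, rfl⟩ := hσ
        refine ⟨cyc3_mem_alternating hd, ?_⟩
        have e : (⟨cyc3 a b c, cyc3_mem_alternating hd⟩ : alternatingGroup (Fin k)) = alt3 a b c :=
          Subtype.ext (alt3_coe hd).symm
        rw [e, col_alt3_eq C hk hd]
        exact Subgroup.subset_closure ⟨Q, _, (zeroCfg_distinct hd).placed Q, rfl⟩
      | one =>
        refine ⟨one_mem _, ?_⟩
        rw [show (⟨1, one_mem _⟩ : alternatingGroup (Fin k)) = 1 from rfl, ind_one, map_one]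
        exact one_mem _
      | mul σ τ _ _ ih1 ih2 =>
        obtain ⟨h1, m1⟩ := ih1
        obtain ⟨h2, m2⟩ := ih2
        refine ⟨mul_mem h1 h2, ?_⟩
        rw [show (⟨σ * τ, mul_mem h1 h2⟩ : alternatingGroup (Fin k)) = ⟨σ, h1⟩ * ⟨τ, h2⟩ from rfl,
          ind_mul, map_mul]
        exact mul_mem m1 m2
      | inv σ _ ih =>
        obtain ⟨h1, m1⟩ := ih
        refine ⟨inv_mem h1, ?_⟩
        rw [show (⟨σ⁻¹, inv_mem h1⟩ : alternatingGroup (Fin k)) = ⟨σ, h1⟩⁻¹ from rfl,
          ind_inv, map_inv]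
        exact inv_mem m1
    obtain ⟨_, h⟩ := key _ (CycleFamily.alternating_le (f x).2)
    exact h

lemma tr_term_mem {a d : Fin k} (e : V) (had : a ≠ d) :
    C.tr (term a d e) ∈ Subgroup.closure (lifts C hk) := by
  obtain ⟨g, hg⟩ := exists_fresh ({a, d} : Finset (Fin k)) 2 (by
    have : ({a, d} : Finset (Fin k)).card ≤ 2 := Finset.card_le_two
    omega)
  have h0 : g 0 ≠ a ∧ g 0 ≠ d := by have := hg 0; simp at this; exact this
  have h1 : g 1 ≠ a ∧ g 1 ≠ d := by have := hg 1; simp at this; exact this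
  have h01 : g 0 ≠ g 1 := g.injective.ne (by decide)
  have hd3 : Dist3 a (g 0) d := ⟨h0.1.symm, had, h0.2⟩
  set t := term d (g 1) e with htdef
  have hts : ∑ i, t i = 0 := term_sum _ _ _
  have hfn : (fun i => t ((alt3 a (g 0) d : Perm (Fin k)).symm i)) = term a d e + t := by
    funext i
    rw [alt3_coe hd3, Pi.add_apply]
    have hsymm : ∀ x y, cyc3 a (g 0) d x = y → (cyc3 a (g 0) d).symm y = x := fun x y h => by
      rw [← h, Equiv.symm_apply_apply]
    by_cases hia : i = a
    · subst hia
      rw [hsymm d i (cyc3_thd _ _ _), term_self e had, htdef, term_self e h1.2.symm,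
        term_apply e h1.1.symm, if_neg had, add_zero]
    by_cases hid : i = d
    · subst hid
      rw [hsymm (g 0) i (cyc3_snd hd3), htdef, term_apply e h01, if_neg h0.2,
        term_self e h1.2.symm]
      simp only [term, comp, if_true]
      rw [Finset.sum_eq_single a (fun j _ hj => if_neg hj)
        (fun h => absurd (Finset.mem_erase.2 ⟨had, Finset.mem_univ a⟩) h), if_pos rfl]
      simp
    by_cases hig : i = g 0
    · subst hig
      rw [hsymm a (g 0) (cyc3_fst hd3), htdef, term_apply e h1.1.symm, if_neg had,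
        term_apply e h0.2, if_neg h0.1, term_apply e h01, if_neg h0.2, add_zero]
    rw [hsymm i i (cyc3_of_ne hia hig hid), term_apply e hid, if_neg hia, zero_add]
  have hconst : LocallyConstant.const S.X (alt3 a (g 0) d) = ind ⊤ (alt3 a (g 0) d) := by
    rw [ind_eq_restr, restr_top]
  have e1 := C.const_tr (alt3 a (g 0) d) t hts
  rw [hfn, C.tr_add _ _ (term_sum _ _ _) hts, hconst] at e1
  have e2 : C.tr (term a d e) = C.col (ind ⊤ (alt3 a (g 0) d)) *
      (C.tr t * (C.col (ind ⊤ (alt3 a (g 0) d)))⁻¹ * (C.tr t)⁻¹) := by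
    rw [← mul_assoc, ← mul_assoc, e1]
    group
  rw [e2]
  refine mul_mem (col_mem C hk _) ?_
  have hinv : C.tr t * (C.col (ind ⊤ (alt3 a (g 0) d)))⁻¹ * (C.tr t)⁻¹ =
      (C.tr t * C.col (ind ⊤ (alt3 a (g 0) d)) * (C.tr t)⁻¹)⁻¹ := by group
  rw [hinv, col_alt3_eq C hk hd3, tr_T C hk ((zeroCfg_distinct hd3).placed ⊤) hts]
  exact inv_mem (Subgroup.subset_closure ⟨_, _,
    ((zeroCfg_distinct hd3).placed ⊤).image (S.translation t)
      (fun i x _ => translation_pt t _ i x), rfl⟩)

lemma closure_lifts : Subgroup.closure (lifts C hk) = ⊤ := by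
  rw [eq_top_iff, ← C.generated, Subgroup.closure_le]
  rintro g (⟨f, rfl⟩ | ⟨t, ht, rfl⟩)
  · exact col_mem C hk f
  · obtain ⟨d, -⟩ := exists_comp hk (zeroCfg (k := k) ⟨0, by omega⟩ ⟨1, by omega⟩ ⟨2, by omega⟩)
    have ht : ∑ i, t i = 0 := ht
    rw [← sum_term ht d]
    have key : ∀ A : Finset (Fin k), d ∉ A → ∑ i, (∑ a ∈ A, term a d (t a)) i = 0 ∧
        C.tr (∑ a ∈ A, term a d (t a)) ∈ Subgroup.closure (lifts C hk) := by
      intro A
      induction A using Finset.induction with
      | empty => intro _; exact ⟨by simp, by rw [Finset.sum_empty, tr_zero]; exact one_mem _⟩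
      | @insert a A haA ih =>
        intro hd
        simp only [Finset.mem_insert, not_or] at hd
        obtain ⟨i1, i2⟩ := ih hd.2
        rw [Finset.sum_insert haA]
        refine ⟨by simp only [Pi.add_apply, Finset.sum_add_distrib, term_sum, i1, add_zero], ?_⟩
        rw [C.tr_add _ _ (term_sum _ _ _) i1]
        exact mul_mem (tr_term_mem C hk _ (Ne.symm hd.1)) i2
    exact (key _ (by simp)).2

/-- The kernel of the projection is central. -/
theorem ker_le_center (hfree : ∀ x : S.X, ∀ v : V, S.act v x = x → v = 0) :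
    C.proj.ker ≤ Subgroup.center C.E := by
  intro z hz
  rw [Subgroup.mem_center_iff]
  intro g
  have hg : g ∈ Subgroup.closure (lifts C hk) := by rw [closure_lifts]; trivial
  show g * z = z * g
  induction hg using Subgroup.closure_induction with
  | mem g hg =>
    obtain ⟨q, P, hP, rfl⟩ := hg
    have h := conj_T C hk hfree z (P' := P) hP fun i x _ => by
      rw [MonoidHom.mem_ker.1 hz]; rfl
    exact (mul_inv_eq_iff_eq_mul.1 h).symm
  | one => simp
  | mul a b _ _ iha ihb => rw [mul_assoc, ihb, ← mul_assoc, iha, mul_assoc]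
  | inv a _ ih => exact (Commute.inv_left (show Commute a z from ih)).eq

end Vale.Agent.P196.B
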