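import Vale.Agent.P196.B.Bridge
import Vale.Agent.P196.Pres.Cover
import Vale.Agent.P196.Cover.Kernel

/-!
P196, module B: finite presentability, given the vanishing step of the kernel bound.
-/

namespace Vale.Agent.P196.B

/-- Module B from the vanishing statement. -/
theorem presentation_of_vanish (hV : ∀ S : SFT, S.VanishStatement) : PresentationStatement :=
  presentation_of Pres.coverStatement fun S => SFT.kernelStatement_of (hV S)

end Vale.Agent.P196.B
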