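import Vale.Agent.P196.B.Interface
import Vale.Agent.P196.B.AltPres

/-!
P196, module B: lifts of three-cycles of placed pieces in a group with exact colourings and covariant
translations.
-/

namespace Vale.Agent.P196.B

open SFT TopologicalSpace Equiv

variable {S : SFT} {k : ℕ}

/-! ### The subshift -/

lemma act_zero (x : S.X) : S.act 0 x = x := Subtype.ext (funext fun u => congrArg x.1 (add_zero u))

lemma act_add (v w : V) (x : S.X) : S.act (v + w) x = S.act v (S.act w x) :=
  Subtype.ext (funext fun u => congrArg x.1 (add_assoc u v w).symm)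

lemma act_neg_act (v : V) (x : S.X) : S.act (-v) (S.act v x) = x := by
  rw [← act_add, neg_add_cancel, act_zero]

lemma act_act_neg (v : V) (x : S.X) : S.act v (S.act (-v) x) = x := by
  rw [← act_add, add_neg_cancel, act_zero]

lemma continuous_act (v : V) : Continuous (S.act v) := by
  show Continuous fun x : S.X => (⟨shiftFun v x.1, S.shiftFun_mem x.2 v⟩ : S.X)
  have h : Continuous fun x : S.X => shiftFun v x.1 :=
    continuous_pi fun u => (continuous_apply (u + v)).comp continuous_subtype_val
  exact h.subtype_mk _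

instance compactX : CompactSpace S.X := by
  have h : IsClosed S.carrier := by
    have : S.carrier = ⋂ v : V, (fun x : V → S.A => S.window x v) ⁻¹' {q | S.allowed q} := by
      ext x; simp [SFT.carrier]
    rw [this]
    refine isClosed_iInter fun v => (isClosed_discrete _).preimage ?_
    exact continuous_pi fun p => continuous_apply _
  exact isCompact_iff_compactSpace.1 h.isCompact

/-- The translate of a clopen set by `v`. -/
def trans (v : V) (q : Clopens S.X) : Clopens S.X :=
  ⟨S.act (-v) ⁻¹' (q : Set S.X), q.2.preimage (continuous_act _)⟩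

lemma mem_trans {v : V} {q : Clopens S.X} {y : S.X} : y ∈ trans v q ↔ S.act (-v) y ∈ q := Iff.rfl

lemma act_mem_trans {v : V} {q : Clopens S.X} {x : S.X} (hx : x ∈ q) : S.act v x ∈ trans v q := by
  rw [mem_trans, act_neg_act]; exact hx

/-- Induction over clopen sets. -/
lemma clopen_induction {p : Clopens S.X → Prop} (h0 : p ⊥)
    (hu : ∀ A B : Clopens S.X, Disjoint A B → p A → p B → p (A ⊔ B))
    (hl : ∀ x : S.X, ∃ Q : Clopens S.X, x ∈ Q ∧ ∀ Q' : Clopens S.X, Q' ≤ Q → p Q') :
    ∀ Q, p Q := by
  classical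
  choose W hW hWp using hl
  obtain ⟨F, hF⟩ := isCompact_univ.elim_finite_subcover (fun x => (W x : Set S.X))
    (fun x => (W x).2.isOpen) fun x _ => Set.mem_iUnion.2 ⟨x, hW x⟩
  have key : ∀ s : Finset S.X, ∀ Q : Clopens S.X, p (Q ⊓ s.sup W) := by
    intro s
    induction s using Finset.induction with
    | empty => intro Q; simpa using h0
    | @insert a s _ ih =>
      intro Q
      have e : Q ⊓ (insert a s).sup W = (Q ⊓ W a) ⊔ ((Q \ W a) ⊓ s.sup W) := by
        rw [Finset.sup_insert]
        apply SetLike.coe_injective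
        ext x
        simp only [Clopens.coe_inf, Clopens.coe_sup, Clopens.coe_sdiff, Set.mem_inter_iff,
          Set.mem_union, Set.mem_sdiff]
        tauto
      rw [e]
      refine hu _ _ ?_ (hWp a _ inf_le_right) (ih _)
      exact Disjoint.mono inf_le_right inf_le_left disjoint_sdiff_self_right
  intro Q
  have htop : F.sup W = ⊤ := by
    rw [eq_top_iff]
    intro x _
    obtain ⟨i, hi, hxi⟩ := Set.mem_iUnion₂.1 (hF (Set.mem_univ x))
    exact (Finset.le_sup (f := W) hi : W i ≤ F.sup W) hxi
  simpa [htop] using key F Q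

lemma not_mem_of_disjoint {A B : Clopens S.X} (h : Disjoint A B) {x : S.X} (hA : x ∈ A) :
    x ∉ B := by
  intro hB
  exact (h.le_bot (show x ∈ A ⊓ B from ⟨hA, hB⟩) : x ∈ (⊥ : Clopens S.X))

/-! ### Colourings -/

/-- The colouring by `σ` on `Q`. -/
noncomputable def ind (Q : Clopens S.X) (σ : alternatingGroup (Fin k)) : Colour S k :=
  open Classical in
  ⟨fun x => if x ∈ Q then σ else 1, (IsLocallyConstant.iff_exists_open _).2 fun x => by
    by_cases hx : x ∈ Q
    · exact ⟨Q, Q.2.isOpen, hx, fun y hy => by simp [hx, show y ∈ Q from hy]⟩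
    · exact ⟨(↑Q)ᶜ, Q.2.compl.isOpen, hx, fun y hy => by simp [hx, show y ∉ Q from hy]⟩⟩

lemma ind_of_mem {Q : Clopens S.X} {x : S.X} (hx : x ∈ Q) (σ : alternatingGroup (Fin k)) :
    ind Q σ x = σ := by
  classical exact if_pos hx

lemma ind_of_notMem {Q : Clopens S.X} {x : S.X} (hx : x ∉ Q) (σ : alternatingGroup (Fin k)) :
    ind Q σ x = 1 := by
  classical exact if_neg hx

/-- The restriction of a colouring to `Q`. -/
noncomputable def restr (f : Colour S k) (Q : Clopens S.X) : Colour S k :=
  open Classical in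
  ⟨fun x => if x ∈ Q then f x else 1, (IsLocallyConstant.iff_exists_open _).2 fun x => by
    obtain ⟨U, hU, hxU, hUf⟩ := (IsLocallyConstant.iff_exists_open f).1 f.isLocallyConstant x
    by_cases hx : x ∈ Q
    · exact ⟨U ∩ Q, hU.inter Q.2.isOpen, ⟨hxU, hx⟩,
        fun y hy => by simp [hx, show y ∈ Q from hy.2, hUf y hy.1]⟩
    · exact ⟨(↑Q)ᶜ, Q.2.compl.isOpen, hx, fun y hy => by simp [hx, show y ∉ Q from hy]⟩⟩

lemma restr_of_mem (f : Colour S k) {Q : Clopens S.X} {x : S.X} (hx : x ∈ Q) :
    restr f Q x = f x := by classical exact if_pos hx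

lemma restr_of_notMem (f : Colour S k) {Q : Clopens S.X} {x : S.X} (hx : x ∉ Q) :
    restr f Q x = 1 := by classical exact if_neg hx

lemma restr_top (f : Colour S k) : restr f ⊤ = f :=
  LocallyConstant.ext fun x => restr_of_mem f (show x ∈ (⊤ : Clopens S.X) from trivial)

lemma restr_sup (f : Colour S k) {A B : Clopens S.X} (h : Disjoint A B) :
    restr f (A ⊔ B) = restr f A * restr f B := by
  apply LocallyConstant.ext
  intro x
  rw [LocallyConstant.mul_apply]
  by_cases hA : x ∈ A
  · rw [restr_of_mem f (show x ∈ A ⊔ B from Or.inl hA), restr_of_mem f hA,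
      restr_of_notMem f (not_mem_of_disjoint h hA), mul_one]
  · by_cases hB : x ∈ B
    · rw [restr_of_mem f (show x ∈ A ⊔ B from Or.inr hB), restr_of_notMem f hA, restr_of_mem f hB,
        one_mul]
    · rw [restr_of_notMem f (show x ∉ A ⊔ B from fun (h' : x ∈ A ∨ x ∈ B) => h'.elim hA hB),
        restr_of_notMem f hA,
        restr_of_notMem f hB, one_mul]

lemma restr_bot (f : Colour S k) : restr f ⊥ = 1 :=
  LocallyConstant.ext fun _ => restr_of_notMem f (fun h => h)

lemma ind_eq_restr (Q : Clopens S.X) (σ : alternatingGroup (Fin k)) :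
    ind Q σ = restr (LocallyConstant.const S.X σ) Q := by
  apply LocallyConstant.ext
  intro x
  by_cases hx : x ∈ Q
  · rw [ind_of_mem hx, restr_of_mem _ hx]; rfl
  · rw [ind_of_notMem hx, restr_of_notMem _ hx]

lemma ind_sup {A B : Clopens S.X} (h : Disjoint A B) (σ : alternatingGroup (Fin k)) :
    ind (A ⊔ B) σ = ind A σ * ind B σ := by
  simp only [ind_eq_restr, restr_sup _ h]

lemma ind_bot (σ : alternatingGroup (Fin k)) : ind (⊥ : Clopens S.X) σ = 1 := by
  rw [ind_eq_restr, restr_bot]

lemma ind_mul (Q : Clopens S.X) (σ τ : alternatingGroup (Fin k)) :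
    ind Q (σ * τ) = ind Q σ * ind Q τ := by
  apply LocallyConstant.ext
  intro x
  rw [LocallyConstant.mul_apply]
  by_cases hx : x ∈ Q
  · simp [ind_of_mem hx]
  · simp [ind_of_notMem hx]

lemma ind_one (Q : Clopens S.X) : ind Q (1 : alternatingGroup (Fin k)) = 1 := by
  apply LocallyConstant.ext
  intro x
  by_cases hx : x ∈ Q
  · rw [ind_of_mem hx]; rfl
  · rw [ind_of_notMem hx]; rfl

lemma ind_inv (Q : Clopens S.X) (σ : alternatingGroup (Fin k)) : ind Q σ⁻¹ = (ind Q σ)⁻¹ :=
  eq_inv_of_mul_eq_one_left (by rw [← ind_mul, inv_mul_cancel, ind_one])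

lemma ind_moves {Q : Clopens S.X} {σ : alternatingGroup (Fin k)} {x : S.X} {c : Fin k}
    (h : (ind Q σ x : Perm (Fin k)) c ≠ c) : (σ : Perm (Fin k)) c ≠ c := by
  by_cases hx : x ∈ Q
  · rwa [ind_of_mem hx] at h
  · rw [ind_of_notMem hx] at h; exact absurd rfl h

lemma shift_apply (f : Colour S k) (e : V) (x : S.X) : f.shift e x = f (S.act (-e) x) := rfl

lemma shift_zero (f : Colour S k) : f.shift 0 = f :=
  LocallyConstant.ext fun x => by rw [shift_apply, neg_zero, act_zero]

lemma shift_ind (Q : Clopens S.X) (σ : alternatingGroup (Fin k)) (e : V) :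
    (ind Q σ).shift e = ind (trans e Q) σ := by
  apply LocallyConstant.ext
  intro x
  rw [shift_apply]
  by_cases hx : x ∈ trans e Q
  · rw [ind_of_mem hx, ind_of_mem (mem_trans.1 hx)]
  · rw [ind_of_notMem hx, ind_of_notMem (fun h => hx (mem_trans.2 h))]

/-- An even three-cycle, trivial when two letters coincide. -/
def alt3 (a b c : Fin k) : alternatingGroup (Fin k) :=
  if h : a ≠ b ∧ a ≠ c ∧ b ≠ c then ⟨cyc3 a b c, cyc3_mem_alternating h⟩ else 1

lemma alt3_coe {a b c : Fin k} (h : Dist3 a b c) : (alt3 a b c : Perm (Fin k)) = cyc3 a b c := by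
  simp only [alt3, dif_pos (show a ≠ b ∧ a ≠ c ∧ b ≠ c from h)]

/-- A double transposition, trivial when degenerate. -/
def dt (a b c d : Fin k) : alternatingGroup (Fin k) :=
  if h : a ≠ b ∧ c ≠ d then ⟨swap a b * swap c d, by
    rw [Perm.mem_alternatingGroup, Perm.sign_mul, Perm.sign_swap h.1, Perm.sign_swap h.2]
    norm_num⟩
  else 1

lemma dt_coe {a b c d : Fin k} (h1 : a ≠ b) (h2 : c ≠ d) :
    (dt a b c d : Perm (Fin k)) = swap a b * swap c d := by
  simp only [dt, dif_pos (And.intro h1 h2)]

lemma dt_moves {a b c d x : Fin k} (h : (dt a b c d : Perm (Fin k)) x ≠ x) :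
    x = a ∨ x = b ∨ x = c ∨ x = d := by
  unfold dt at h
  split at h
  · by_contra hc
    simp only [not_or] at hc
    exact h (by simp [Perm.mul_apply, swap_apply_of_ne_of_ne hc.2.2.1 hc.2.2.2,
      swap_apply_of_ne_of_ne hc.1 hc.2.1])
  · exact absurd rfl h

lemma dt_fixes {a b c d x : Fin k} (h1 : x ≠ a) (h2 : x ≠ b) (h3 : x ≠ c) (h4 : x ≠ d) :
    (dt a b c d : Perm (Fin k)) x = x := by
  by_contra h
  rcases dt_moves h with h | h | h | h <;> contradiction

lemma dt_fst {a b c d : Fin k} (h1 : a ≠ b) (h2 : c ≠ d) (h3 : a ≠ c) (h4 : a ≠ d) :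
    (dt a b c d : Perm (Fin k)) a = b := by
  rw [dt_coe h1 h2, Perm.mul_apply, swap_apply_of_ne_of_ne h3 h4, swap_apply_left]

lemma exists_fresh (s : Finset (Fin k)) (n : ℕ) (h : s.card + n ≤ k) :
    ∃ g : Fin n ↪ Fin k, ∀ i, g i ∉ s := by
  have hcard : Fintype.card (Fin n) ≤ Fintype.card ↥sᶜ := by
    simp; omega
  obtain ⟨e⟩ := Function.Embedding.nonempty_of_card_le hcard
  exact ⟨e.trans (Function.Embedding.subtype _), fun i => Finset.mem_compl.1 (e i).2⟩

/-! ### Configurations of three points -/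

/-- Three cells: a colour and a vector. -/
abbrev Cfg (k : ℕ) := Fin 3 → Fin k × V

/-- The colours of a configuration are distinct. -/
def Distinct (P : Cfg k) : Prop := Function.Injective fun i => (P i).1

/-- The three pieces over `q` are disjoint. -/
def Placed (q : Clopens S.X) (P : Cfg k) : Prop :=
  ∀ i j, ∀ x ∈ q, ∀ y ∈ q, (P i).1 = (P j).1 → S.act (P i).2 x = S.act (P j).2 y → i = j

/-- The configuration with the colours replaced. -/
def recol (D : Fin 3 → Fin k) (P : Cfg k) : Cfg k := fun i => (D i, (P i).2)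

lemma Distinct.placed {P : Cfg k} (h : Distinct P) (q : Clopens S.X) : Placed q P :=
  fun _ _ _ _ _ _ hc _ => h hc

lemma Placed.mono {q q' : Clopens S.X} {P : Cfg k} (h : Placed q P) (hq : q' ≤ q) :
    Placed q' P :=
  fun i j x hx y hy => h i j x (hq hx) y (hq hy)

lemma Distinct.dist3 {P : Cfg k} (h : Distinct P) : Dist3 (P 0).1 (P 1).1 (P 2).1 :=
  ⟨fun e => absurd (h e) (by decide), fun e => absurd (h e) (by decide),
    fun e => absurd (h e) (by decide)⟩

/-- The colours of a configuration. -/
def colours (P : Cfg k) : Finset (Fin k) := Finset.univ.image fun i => (P i).1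

lemma mem_colours (P : Cfg k) (i : Fin 3) : (P i).1 ∈ colours P :=
  Finset.mem_image.2 ⟨i, Finset.mem_univ _, rfl⟩

lemma card_colours (P : Cfg k) : (colours P).card ≤ 3 :=
  Finset.card_image_le.trans (by simp)

/-- A zero-sum vector family with compensation at `d`. -/
def comp (d : Fin k) (u : Fin k → V) : Fin k → V :=
  fun i => if i = d then -∑ j ∈ Finset.univ.erase d, u j else u i

lemma comp_sum (d : Fin k) (u : Fin k → V) : ∑ i, comp d u i = 0 := by
  rw [← Finset.add_sum_erase _ _ (Finset.mem_univ d)]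
  have : ∀ i ∈ Finset.univ.erase d, comp d u i = u i := fun i hi => by
    simp [comp, Finset.ne_of_mem_erase hi]
  rw [Finset.sum_congr rfl this]
  simp [comp]

lemma comp_of_ne {d : Fin k} {u : Fin k → V} {i : Fin k} (h : i ≠ d) : comp d u i = u i := by
  simp [comp, h]

/-- `f` sends the pieces of `P` to the colours `D`. -/
def Sends (f : Colour S k) (q : Clopens S.X) (P : Cfg k) (D : Fin 3 → Fin k) : Prop :=
  ∀ i, ∀ x ∈ q, (f (S.act (P i).2 x) : Perm (Fin k)) (P i).1 = D i

lemma Sends.mul {f g : Colour S k} {q : Clopens S.X} {P : Cfg k} {D D' : Fin 3 → Fin k}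
    (hg : Sends g q P D) (hf : Sends f q (recol D P) D') : Sends (f * g) q P D' := by
  intro i x hx
  have h1 := hg i x hx
  have h2 := hf i x hx
  simp only [recol] at h2
  rw [LocallyConstant.mul_apply, Subgroup.coe_mul, Perm.mul_apply, h1, h2]

lemma Sends.inv {f : Colour S k} {q : Clopens S.X} {P : Cfg k} {D : Fin 3 → Fin k}
    (hf : Sends f q P D) : Sends f⁻¹ q (recol D P) fun i => (P i).1 := by
  intro i x hx
  simp only [recol]
  rw [LocallyConstant.inv_apply, Subgroup.coe_inv, Perm.inv_def, Equiv.symm_apply_eq]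
  exact (hf i x hx).symm

lemma Sends.mono {f : Colour S k} {q q' : Clopens S.X} {P : Cfg k} {D : Fin 3 → Fin k}
    (hf : Sends f q P D) (h : q' ≤ q) : Sends f q' P D := fun i x hx => hf i x (h hx)

lemma recol_self (P : Cfg k) : recol (fun i => (P i).1) P = P := rfl

lemma recol_recol (D D' : Fin 3 → Fin k) (P : Cfg k) : recol D (recol D' P) = recol D P := rfl

/-! ### Translations and distinct colours -/

variable (C : Cover S k)

lemma tr_zero : C.tr 0 = 1 := by
  have h := C.tr_add 0 0 (by simp) (by simp)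
  rw [add_zero] at h
  exact mul_left_cancel (h.symm.trans (mul_one _).symm)

lemma tr_neg {s : Fin k → V} (hs : ∑ i, s i = 0) : C.tr (-s) = (C.tr s)⁻¹ := by
  refine eq_inv_of_mul_eq_one_left ?_
  rw [← C.tr_add (-s) s (by simp [hs]) hs, neg_add_cancel, tr_zero]

lemma tr_commute_col {f : Colour S k} {t : Fin k → V} (ht : ∑ i, t i = 0)
    (h : ∀ i, (∃ x, (f x : Perm (Fin k)) i ≠ i) → t i = 0) : Commute (C.tr t) (C.col f) := by
  have := C.covariant f t 0 ht h
  rw [shift_zero] at this
  exact mul_inv_eq_iff_eq_mul.1 this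

lemma tr_conj_ind {Q : Clopens S.X} {σ : alternatingGroup (Fin k)} {t : Fin k → V}
    (ht : ∑ i, t i = 0) {e : V} (h : ∀ i, (σ : Perm (Fin k)) i ≠ i → t i = e) :
    C.tr t * C.col (ind Q σ) * (C.tr t)⁻¹ = C.col (ind (trans e Q) σ) := by
  rw [C.covariant _ t e ht fun i ⟨x, hx⟩ => h i (ind_moves hx), shift_ind]

lemma alt3_moves {a b c x : Fin k} (h : (alt3 a b c : Perm (Fin k)) x ≠ x) :
    x = a ∨ x = b ∨ x = c := by
  by_cases hd : Dist3 a b c
  · rw [alt3_coe hd] at h
    by_contra hc
    simp only [not_or] at hc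
    exact h (cyc3_of_ne hc.1 hc.2.1 hc.2.2)
  · rw [alt3, dif_neg (show ¬(a ≠ b ∧ a ≠ c ∧ b ≠ c) from hd)] at h
    exact absurd rfl h

/-- A vector family extending the vectors of a configuration with distinct colours. -/
def ext (P : Cfg k) : Fin k → V := fun c => ∑ i, if c = (P i).1 then (P i).2 else 0

lemma ext_apply {P : Cfg k} (hP : Distinct P) (i : Fin 3) : ext P (P i).1 = (P i).2 := by
  rw [ext, Finset.sum_eq_single i (fun j _ hj => if_neg fun e => hj (hP e).symm)
    (fun h => absurd (Finset.mem_univ i) h), if_pos rfl]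

variable (hk : 12 ≤ k)
include hk

omit C in
lemma exists_comp (P : Cfg k) : ∃ d : Fin k, d ∉ colours P := by
  obtain ⟨g, hg⟩ := exists_fresh (colours P) 1 (by have := card_colours P; omega)
  exact ⟨g 0, hg 0⟩

/-- The lift of a three-cycle of pieces with distinct colours. -/
noncomputable def tdist (q : Clopens S.X) (P : Cfg k) : C.E :=
  C.tr (comp (exists_comp hk P).choose (ext P)) * C.col (ind q (alt3 (P 0).1 (P 1).1 (P 2).1)) *
    (C.tr (comp (exists_comp hk P).choose (ext P)))⁻¹

lemma tdist_eq {q : Clopens S.X} {P : Cfg k} (hP : Distinct P) {t : Fin k → V}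
    (ht : ∑ i, t i = 0) (htP : ∀ i, t (P i).1 = (P i).2) :
    tdist C hk q P =
      C.tr t * C.col (ind q (alt3 (P 0).1 (P 1).1 (P 2).1)) * (C.tr t)⁻¹ := by
  unfold tdist
  have hd := (exists_comp hk P).choose_spec
  set t0 := comp (exists_comp hk P).choose (ext P) with ht0
  have ht0s : ∑ i, t0 i = 0 := comp_sum _ _
  have hsum : ∑ i, (t0 - t) i = 0 := by simp [Finset.sum_sub_distrib, ht0s, ht]
  have he : C.tr t0 = C.tr t * C.tr (t0 - t) := by
    rw [← C.tr_add t (t0 - t) ht hsum, add_sub_cancel]
  have hzero : ∀ i, (t0 - t) (P i).1 = 0 := by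
    intro i
    rw [Pi.sub_apply, ht0, comp_of_ne (fun e => hd (by rw [← e]; exact mem_colours P i)),
      ext_apply hP, htP, sub_self]
  have hc : Commute (C.tr (t0 - t)) (C.col (ind q (alt3 (P 0).1 (P 1).1 (P 2).1))) := by
    refine tr_commute_col C hsum fun i ⟨x, hx⟩ => ?_
    rcases alt3_moves (ind_moves hx) with rfl | rfl | rfl <;> exact hzero _
  rw [he, mul_assoc (C.tr t) (C.tr (t0 - t)), hc.eq, mul_inv_rev]
  group

lemma tdist_sup {A B : Clopens S.X} (h : Disjoint A B) (P : Cfg k) :
    tdist C hk (A ⊔ B) P = tdist C hk A P * tdist C hk B P := by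
  unfold tdist
  rw [ind_sup h, map_mul]
  group

lemma tdist_bot (P : Cfg k) : tdist C hk ⊥ P = 1 := by
  unfold tdist
  rw [ind_bot, map_one]
  group

/-! ### Recolouring one point -/

lemma move_one {q : Clopens S.X} {P : Cfg k} (hP : Distinct P) (i : Fin 3) {F a b : Fin k}
    (hF : F ∉ colours P) (ha : a ∉ colours P) (hb : b ∉ colours P) (haF : a ≠ F) (hbF : b ≠ F)
    (hab : a ≠ b) :
    C.col (ind (trans (P i).2 q) (dt (P i).1 F a b)) * tdist C hk q P *
        (C.col (ind (trans (P i).2 q) (dt (P i).1 F a b)))⁻¹ =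
      tdist C hk q (Function.update P i (F, (P i).2)) := by
  classical
  set P' := Function.update P i (F, (P i).2) with hP'
  set M : Finset (Fin k) := {(P i).1, F, a, b} with hM
  obtain ⟨g, hg⟩ := exists_fresh (colours P ∪ M) 1 (by
    have h1 := card_colours P
    have h2 : M.card ≤ 4 := by
      rw [hM]; exact (Finset.card_insert_le _ _).trans (by
        have := Finset.card_insert_le F ({a, b} : Finset (Fin k))
        have := Finset.card_insert_le a ({b} : Finset (Fin k))
        simp at *; omega)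
    have := Finset.card_union_le (colours P) M
    omega)
  set u : Fin k → V := fun c => if c ∈ M then (P i).2 else ext P c with hu
  set t := comp (g 0) u with htdef
  have hts : ∑ c, t c = 0 := comp_sum _ _
  have hg0 : ∀ c, c ∈ colours P ∪ M → c ≠ g 0 := fun c hc e => hg 0 (e ▸ hc)
  have htM : ∀ c ∈ M, t c = (P i).2 := by
    intro c hc
    rw [htdef, comp_of_ne (hg0 c (Finset.mem_union_right _ hc)), hu]
    simp [hc]
  have htP : ∀ j, t (P j).1 = (P j).2 := by
    intro j
    rw [htdef, comp_of_ne (hg0 _ (Finset.mem_union_left _ (mem_colours P j))), hu]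
    simp only
    split_ifs with h
    · have hcases : (P j).1 = (P i).1 ∨ (P j).1 = F ∨ (P j).1 = a ∨ (P j).1 = b := by
        simpa [hM] using h
      rcases hcases with e | e | e | e
      · rw [hP e]
      · exact absurd (e ▸ mem_colours P j) hF
      · exact absurd (e ▸ mem_colours P j) ha
      · exact absurd (e ▸ mem_colours P j) hb
    · exact ext_apply hP j
  have hcolne : ∀ j, (P j).1 ≠ F ∧ (P j).1 ≠ a ∧ (P j).1 ≠ b := fun j =>
    ⟨fun e => hF (e ▸ mem_colours P j), fun e => ha (e ▸ mem_colours P j),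
      fun e => hb (e ▸ mem_colours P j)⟩
  have himg : ∀ j, (dt (P i).1 F a b : Perm (Fin k)) (P j).1 = (P' j).1 := by
    intro j
    obtain ⟨j1, j2, j3⟩ := hcolne j
    by_cases hj : j = i
    · subst hj
      rw [hP', Function.update_self, dt_fst j1 hab j2 j3]
    · rw [hP', Function.update_of_ne hj]
      exact dt_fixes (fun e => hj (hP e)) j1 j2 j3
  have hP'd : Distinct P' := by
    intro j l h
    simp only at h
    rw [← himg j, ← himg l] at h
    exact hP ((dt (P i).1 F a b : Perm (Fin k)).injective h)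
  have htP' : ∀ j, t (P' j).1 = (P' j).2 := by
    intro j
    by_cases hj : j = i
    · subst hj
      rw [hP', Function.update_self]
      exact htM F (by simp [hM])
    · rw [hP', Function.update_of_ne hj]
      exact htP j
  have hcol : C.col (ind (trans (P i).2 q) (dt (P i).1 F a b)) =
      C.tr t * C.col (ind q (dt (P i).1 F a b)) * (C.tr t)⁻¹ := by
    refine (tr_conj_ind C hts fun c hc => htM c ?_).symm
    rcases dt_moves hc with rfl | rfl | rfl | rfl <;> simp [hM]
  rw [tdist_eq C hk hP hts htP, tdist_eq C hk hP'd hts htP', hcol]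
  have hconj : dt (P i).1 F a b * alt3 (P 0).1 (P 1).1 (P 2).1 * (dt (P i).1 F a b)⁻¹ =
      alt3 (P' 0).1 (P' 1).1 (P' 2).1 := by
    apply Subtype.ext
    rw [Subgroup.coe_mul, Subgroup.coe_mul, Subgroup.coe_inv, alt3_coe hP.dist3,
      cyc3_conj hP.dist3, himg, himg, himg, alt3_coe hP'd.dist3]
  rw [← hconj, ind_mul, ind_mul, ind_inv, map_mul, map_mul, map_inv]
  group

omit C in
/-- The colours for recolouring: three targets and two auxiliary colours for each point. -/
structure Rec (P : Cfg k) where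
  F : Fin 3 → Fin k
  a : Fin 3 → Fin k
  b : Fin 3 → Fin k
  F_inj : Function.Injective F
  F_fresh : ∀ i, F i ∉ colours P
  a_fresh : ∀ i, a i ∉ colours P
  b_fresh : ∀ i, b i ∉ colours P
  aF : ∀ i j, a i ≠ F j
  bF : ∀ i j, b i ≠ F j
  ab : ∀ i, a i ≠ b i

omit hk C in
/-- The recolouring. -/
noncomputable def Rec.map {P : Cfg k} (R : Rec P) (q : Clopens S.X) : Colour S k :=
  ind (trans (P 0).2 q) (dt (P 0).1 (R.F 0) (R.a 0) (R.b 0)) *
    ind (trans (P 1).2 q) (dt (P 1).1 (R.F 1) (R.a 1) (R.b 1)) *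
    ind (trans (P 2).2 q) (dt (P 2).1 (R.F 2) (R.a 2) (R.b 2))

omit hk C in
lemma Rec.sends {P : Cfg k} (R : Rec P) {q : Clopens S.X} (hP : Placed q P) :
    Sends (R.map q) q P R.F := by
  intro i x hx
  have hne : ∀ j, (P i).1 ≠ R.F j ∧ (P i).1 ≠ R.a j ∧ (P i).1 ≠ R.b j := fun j =>
    ⟨fun e => R.F_fresh j (e ▸ mem_colours P i), fun e => R.a_fresh j (e ▸ mem_colours P i),
      fun e => R.b_fresh j (e ▸ mem_colours P i)⟩
  have hself : (ind (trans (P i).2 q) (dt (P i).1 (R.F i) (R.a i) (R.b i)) (S.act (P i).2 x) :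
      Perm (Fin k)) (P i).1 = R.F i := by
    rw [ind_of_mem (act_mem_trans hx), dt_fst (hne i).1 (R.ab i) (hne i).2.1 (hne i).2.2]
  have hoff : ∀ j, j ≠ i → ∀ c, c = (P i).1 ∨ c = R.F i →
      (ind (trans (P j).2 q) (dt (P j).1 (R.F j) (R.a j) (R.b j)) (S.act (P i).2 x) :
        Perm (Fin k)) c = c := by
    intro j hj c hc
    by_cases hm : S.act (P i).2 x ∈ trans (P j).2 q
    · rw [ind_of_mem hm]
      rcases hc with rfl | rfl
      · refine dt_fixes (fun e => hj ?_) (hne j).1 (hne j).2.1 (hne j).2.2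
        exact hP j i _ (mem_trans.1 hm) x hx e.symm (act_act_neg _ _)
      · exact dt_fixes (fun e => R.F_fresh i (e ▸ mem_colours P j))
          (R.F_inj.ne fun e => hj e.symm) (fun e => R.aF j i e.symm) fun e => R.bF j i e.symm
    · rw [ind_of_notMem hm]; rfl
  simp only [Rec.map, LocallyConstant.mul_apply, Subgroup.coe_mul, Perm.mul_apply]
  match i with
  | 0 => rw [hoff 2 (by decide) _ (Or.inl rfl), hoff 1 (by decide) _ (Or.inl rfl), hself]
  | 1 => rw [hoff 2 (by decide) _ (Or.inl rfl), hself, hoff 0 (by decide) _ (Or.inr rfl)]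
  | 2 => rw [hself, hoff 1 (by decide) _ (Or.inr rfl), hoff 0 (by decide) _ (Or.inr rfl)]

omit C in
lemma exists_rec (P : Cfg k) (s : Finset (Fin k)) (hs : (colours P ∪ s).card ≤ 7) :
    ∃ R : Rec P, (∀ i, R.F i ∉ s) ∧ (∀ i, R.a i ∉ s) ∧ (∀ i, R.b i ∉ s) := by
  obtain ⟨g, hg⟩ := exists_fresh (colours P ∪ s) 5 (by omega)
  have h : ∀ i, g i ∉ colours P ∧ g i ∉ s := fun i => by
    have := hg i; simp only [Finset.mem_union, not_or] at this; exact this
  have hc : (3 : ℕ) ≤ 5 := by norm_num
  have hne : ∀ (j : Fin 3) (l : Fin 5), 3 ≤ (l : ℕ) → g l ≠ g (Fin.castLE hc j) := by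
    intro j l hl e
    have := congrArg Fin.val (g.injective e)
    simp at this; omega
  let R : Rec P :=
    { F := fun i => g (Fin.castLE hc i)
      a := fun _ => g 3
      b := fun _ => g 4
      F_inj := g.injective.comp (Fin.castLE_injective hc)
      F_fresh := fun i => (h _).1
      a_fresh := fun _ => (h _).1
      b_fresh := fun _ => (h _).1
      aF := fun _ j => hne j 3 (by decide)
      bF := fun _ j => hne j 4 (by decide)
      ab := fun _ => g.injective.ne (by decide) }
  exact ⟨R, fun i => (h _).2, fun _ => (h _).2, fun _ => (h _).2⟩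

lemma Rec.move {P : Cfg k} (R : Rec P) (hP : Distinct P) (q : Clopens S.X) :
    C.col (R.map q) * tdist C hk q P * (C.col (R.map q))⁻¹ =
      tdist C hk q (recol R.F P) := by
  set P2 := Function.update P 2 (R.F 2, (P 2).2) with hP2
  set P1 := Function.update P2 1 (R.F 1, (P 1).2) with hP1
  have hne : ∀ i j, (P i).1 ≠ R.F j := fun i j e => R.F_fresh j (e ▸ mem_colours P i)
  have hd2 : Distinct P2 := by
    intro i j h
    fin_cases i <;> fin_cases j <;> simp [hP2] at h ⊢ <;>
      first
        | exact absurd (hP h) (by decide)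
        | exact absurd h (hne _ _)
        | exact absurd h.symm (hne _ _)
  have hd1 : Distinct P1 := by
    intro i j h
    fin_cases i <;> fin_cases j <;> simp [hP1, hP2] at h ⊢ <;>
      first
        | exact absurd (hP h) (by decide)
        | exact absurd h (hne _ _)
        | exact absurd h.symm (hne _ _)
        | exact absurd (R.F_inj h) (by decide)
  have hc : ∀ (c : Fin k) (Q : Cfg k), (∀ i, (Q i).1 ≠ c) → c ∉ colours Q := by
    intro c Q h hc
    obtain ⟨i, -, e⟩ := Finset.mem_image.1 hc
    exact h i e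
  have hFne : ∀ i j, i ≠ j → R.F i ≠ R.F j := fun i j h => R.F_inj.ne h
  have ha : ∀ i j, (P j).1 ≠ R.a i := fun i j e => R.a_fresh i (e ▸ mem_colours P j)
  have hb : ∀ i j, (P j).1 ≠ R.b i := fun i j e => R.b_fresh i (e ▸ mem_colours P j)
  have e2 := move_one C hk (q := q) hP 2 (R.F_fresh 2) (R.a_fresh 2) (R.b_fresh 2) (R.aF 2 2)
    (R.bF 2 2) (R.ab 2)
  have e1 := move_one C hk (q := q) hd2 1 (F := R.F 1) (a := R.a 1) (b := R.b 1)
    (hc _ _ fun i => by fin_cases i <;> simp [hP2, hne, hFne])
    (hc _ _ fun i => by fin_cases i <;> simp [hP2, ha, Ne.symm (R.aF 1 2)])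
    (hc _ _ fun i => by fin_cases i <;> simp [hP2, hb, Ne.symm (R.bF 1 2)])
    (R.aF 1 1) (R.bF 1 1) (R.ab 1)
  have e0 := move_one C hk (q := q) hd1 0 (F := R.F 0) (a := R.a 0) (b := R.b 0)
    (hc _ _ fun i => by fin_cases i <;> simp [hP1, hP2, hne, hFne])
    (hc _ _ fun i => by
      fin_cases i <;> simp [hP1, hP2, ha, Ne.symm (R.aF 0 1), Ne.symm (R.aF 0 2)])
    (hc _ _ fun i => by
      fin_cases i <;> simp [hP1, hP2, hb, Ne.symm (R.bF 0 1), Ne.symm (R.bF 0 2)])
    (R.aF 0 0) (R.bF 0 0) (R.ab 0)
  have h21 : P2 1 = P 1 := by simp [hP2]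
  have h10 : P1 0 = P 0 := by simp [hP1, hP2]
  have hfin : Function.update P1 0 (R.F 0, (P1 0).2) = recol R.F P := by
    funext i
    fin_cases i <;> simp [hP1, hP2, recol]
  rw [h21] at e1
  rw [hfin, h10] at e0
  rw [← hP2] at e2
  rw [← hP1] at e1
  rw [← e0, ← e1, ← e2, Rec.map, map_mul, map_mul]
  group

/-! ### Colourings that fix the pieces commute with the lift -/

lemma commute_alt3 {q Q : Clopens S.X} {P : Cfg k} (hP : Distinct P) {x y z : Fin k}
    (h : ∀ i, ((P i).1 ≠ x ∧ (P i).1 ≠ y ∧ (P i).1 ≠ z) ∨ Disjoint Q (trans (P i).2 q)) :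
    Commute (C.col (ind Q (alt3 x y z))) (tdist C hk q P) := by
  classical
  suffices key : ∀ n, ∀ P : Cfg k, Distinct P →
      (∀ i, ((P i).1 ≠ x ∧ (P i).1 ≠ y ∧ (P i).1 ≠ z) ∨ Disjoint Q (trans (P i).2 q)) →
      (Finset.univ.filter fun i => (P i).1 = x ∨ (P i).1 = y ∨ (P i).1 = z).card = n →
      Commute (C.col (ind Q (alt3 x y z))) (tdist C hk q P) from
    key _ P hP h rfl
  intro n
  induction n using Nat.strong_induction_on with
  | _ n ih =>
    intro P hP h hn
    by_cases hbad : ∃ i, (P i).1 = x ∨ (P i).1 = y ∨ (P i).1 = z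
    · obtain ⟨i, hi⟩ := hbad
      have hdis : Disjoint Q (trans (P i).2 q) := (h i).resolve_left fun ⟨h1, h2, h3⟩ => by
        rcases hi with e | e | e <;> contradiction
      have hxyz : ({x, y, z} : Finset (Fin k)).card ≤ 3 := Finset.card_le_three
      obtain ⟨g, hg⟩ := exists_fresh (colours P ∪ {x, y, z}) 3 (by
        have := Finset.card_union_le (colours P) {x, y, z}
        have := card_colours P
        omega)
      have hg' : ∀ l, g l ∉ colours P ∧ g l ≠ x ∧ g l ≠ y ∧ g l ≠ z := fun l => by
        have := hg l; simp at this; tauto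
      have e := move_one C hk (q := q) hP i (hg' 0).1 (hg' 1).1 (hg' 2).1
        (g.injective.ne (by decide)) (g.injective.ne (by decide)) (g.injective.ne (by decide))
      set P' := Function.update P i (g 0, (P i).2) with hP'
      have hP'd : Distinct P' := by
        intro j l hjl
        by_cases hj : j = i <;> by_cases hl : l = i
        · rw [hj, hl]
        · simp [hP', hj, hl] at hjl
          exact absurd (hjl ▸ mem_colours P l) (hg' 0).1
        · simp [hP', hj, hl] at hjl
          exact absurd (hjl ▸ mem_colours P j) (hg' 0).1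
        · simp [hP', hj, hl] at hjl
          exact hP hjl
      have hcard : (Finset.univ.filter fun j => (P' j).1 = x ∨ (P' j).1 = y ∨ (P' j).1 = z).card
          < n := by
        rw [← hn]
        refine Finset.card_lt_card (Finset.ssubset_iff_subset_ne.2 ⟨fun j => ?_, fun he => ?_⟩)
        · simp only [Finset.mem_filter, Finset.mem_univ, true_and]
          by_cases hj : j = i
          · intro hx; simp [hP', hj, (hg' 0).2] at hx
          · simp [hP', hj]
        · have : i ∈ Finset.univ.filter fun j => (P' j).1 = x ∨ (P' j).1 = y ∨ (P' j).1 = z :=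
            he ▸ by simp [hi]
          simp [hP', (hg' 0).2] at this
      have hc := ih _ hcard P' hP'd (fun j => by
        by_cases hj : j = i
        · exact Or.inl (by simp [hP', hj, (hg' 0).2])
        · simpa [hP', hj] using h j) rfl
      have hr : Commute (C.col (ind Q (alt3 x y z)))
          (C.col (ind (trans (P i).2 q) (dt (P i).1 (g 0) (g 1) (g 2)))) := by
        refine (Commute.map (f := C.col) ?_)
        apply LocallyConstant.ext
        intro w
        simp only [LocallyConstant.mul_apply]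
        by_cases hw : w ∈ Q
        · rw [ind_of_notMem (not_mem_of_disjoint hdis hw), mul_one, one_mul]
        · rw [ind_of_notMem hw, mul_one, one_mul]
      have e' : tdist C hk q P = (C.col (ind (trans (P i).2 q) (dt (P i).1 (g 0) (g 1) (g 2))))⁻¹ *
          tdist C hk q P' * C.col (ind (trans (P i).2 q) (dt (P i).1 (g 0) (g 1) (g 2))) := by
        rw [← e]; group
      rw [e']
      exact ((hr.inv_right.mul_right hc).mul_right hr)
    · push Not at hbad
      obtain ⟨g, hg⟩ := exists_fresh (colours P ∪ {x, y, z}) 1 (by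
        have := Finset.card_union_le (colours P) {x, y, z}
        have := card_colours P
        have : ({x, y, z} : Finset (Fin k)).card ≤ 3 := Finset.card_le_three
        omega)
      set u : Fin k → V := fun c => if c ∈ colours P then ext P c else 0 with hu
      have ht : ∀ j, comp (g 0) u (P j).1 = (P j).2 := fun j => by
        rw [comp_of_ne (fun e => hg 0 (by rw [← e]; simp [mem_colours])), hu]
        simp [mem_colours, ext_apply hP]
      have h0 : ∀ w, w = x ∨ w = y ∨ w = z → comp (g 0) u w = 0 := by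
        intro w hw
        rw [comp_of_ne (fun e => hg 0 (by rw [← e]; simp; tauto)), hu]
        have hnc : w ∉ colours P := by
          intro hc
          obtain ⟨j, -, rfl⟩ := Finset.mem_image.1 hc
          obtain ⟨h1, h2, h3⟩ := hbad j
          rcases hw with e | e | e <;> contradiction
        simp [hnc]
      rw [tdist_eq C hk hP (comp_sum _ _) ht]
      have hc1 : Commute (C.col (ind Q (alt3 x y z))) (C.tr (comp (g 0) u)) :=
        (tr_commute_col C (comp_sum _ _) fun w ⟨_, hw⟩ => h0 w (alt3_moves (ind_moves hw))).symm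
      have hc2 : Commute (C.col (ind Q (alt3 x y z)))
          (C.col (ind q (alt3 (P 0).1 (P 1).1 (P 2).1))) := by
        refine Commute.map (f := C.col) ?_
        apply LocallyConstant.ext
        intro w
        simp only [LocallyConstant.mul_apply]
        apply Subtype.ext
        simp only [Subgroup.coe_mul]
        refine (Perm.Disjoint.commute fun c => ?_).eq
        by_cases hc : (ind Q (alt3 x y z) w : Perm (Fin k)) c = c
        · exact Or.inl hc
        · refine Or.inr ?_
          by_contra hc'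
          obtain ⟨j, hj⟩ : ∃ j, c = (P j).1 := by
            rcases alt3_moves (ind_moves hc') with e | e | e <;> exact ⟨_, e⟩
          obtain ⟨h1, h2, h3⟩ := hbad j
          rcases alt3_moves (ind_moves hc) with e | e | e <;> simp_all
      exact ((hc1.mul_right hc2).mul_right hc1.inv_right)

lemma commute_ind {q Q : Clopens S.X} {P : Cfg k} (hP : Distinct P) {π : alternatingGroup (Fin k)}
    (h : ∀ i, (π : Perm (Fin k)) (P i).1 = (P i).1 ∨ Disjoint Q (trans (P i).2 q)) :
    Commute (C.col (ind Q π)) (tdist C hk q P) := by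
  classical
  set F : Finset (Fin k) := (colours P).filter fun c => (π : Perm (Fin k)) c = c with hF
  have hπ : ∀ c, c ∈ F → (π : Perm (Fin k)) c = c := fun c hc => (Finset.mem_filter.1 hc).2
  let p : Fin k → Prop := fun c => c ∉ F
  have hp : ∀ c, (π : Perm (Fin k)) c ∈ F ↔ c ∈ F := by
    intro c
    constructor
    · intro hc
      have e := hπ _ hc
      rwa [(π : Perm (Fin k)).injective e] at hc
    · intro hc; rwa [hπ c hc]
  have hp' : ∀ c, p ((π : Perm (Fin k)) c) ↔ p c := fun c => not_congr (hp c)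
  let π' : Perm (Subtype p) := (π : Perm (Fin k)).subtypePerm hp'
  have hfix : ∀ c, (π : Perm (Fin k)) c ≠ c → p c := fun c hc h' => hc (hπ c h')
  have he : Perm.ofSubtype π' = (π : Perm (Fin k)) :=
    Perm.ofSubtype_subtypePerm hp' hfix
  have hsign : π' ∈ alternatingGroup (Subtype p) := by
    rw [Perm.mem_alternatingGroup, ← Perm.sign_ofSubtype, he]
    exact Perm.mem_alternatingGroup.1 π.2
  have hmem := CycleFamily.alternating_le hsign
  have key : ∀ σ ∈ Subgroup.closure {σ : Perm (Subtype p) | ∃ a b c, Dist3 a b c ∧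
      σ = cyc3 a b c}, ∀ hσ : Perm.ofSubtype σ ∈ alternatingGroup (Fin k),
      Commute (C.col (ind Q ⟨_, hσ⟩)) (tdist C hk q P) := by
    intro σ hσ
    induction hσ using Subgroup.closure_induction with
    | mem σ hσ =>
      obtain ⟨a, b, c, hd, rfl⟩ := hσ
      intro hσ
      have hd' : Dist3 (a : Fin k) b c :=
        ⟨fun e => hd.1 (Subtype.ext e), fun e => hd.2.1 (Subtype.ext e),
          fun e => hd.2.2 (Subtype.ext e)⟩
      have e : (⟨_, hσ⟩ : alternatingGroup (Fin k)) = alt3 (a : Fin k) b c := by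
        apply Subtype.ext
        rw [alt3_coe hd']
        refine cyc3_eq hd' ?_ ?_ ?_ fun w h1 h2 h3 => ?_
        · rw [Perm.ofSubtype_apply_coe, cyc3_fst hd]
        · rw [Perm.ofSubtype_apply_coe, cyc3_snd hd]
        · rw [Perm.ofSubtype_apply_coe, cyc3_thd]
        · by_cases hw : p w
          · rw [Perm.ofSubtype_apply_of_mem _ hw, cyc3_of_ne (fun e => h1 (congrArg Subtype.val e))
              (fun e => h2 (congrArg Subtype.val e)) (fun e => h3 (congrArg Subtype.val e))]
          · exact Perm.ofSubtype_apply_of_not_mem _ hw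
      rw [e]
      refine commute_alt3 C hk hP fun i => (h i).imp (fun hfix => ?_) id
      have hiF : (P i).1 ∈ F := Finset.mem_filter.2 ⟨mem_colours P i, hfix⟩
      exact ⟨fun e => a.2 (e ▸ hiF), fun e => b.2 (e ▸ hiF), fun e => c.2 (e ▸ hiF)⟩
    | one =>
      intro hσ
      have e : (⟨_, hσ⟩ : alternatingGroup (Fin k)) = 1 := Subtype.ext (map_one _)
      rw [e, ind_one, map_one]
      exact Commute.one_left _
    | mul σ τ hσm hτm ihσ ihτ =>
      intro hστ
      have hσ : Perm.ofSubtype σ ∈ alternatingGroup (Fin k) := by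
        rw [Perm.mem_alternatingGroup, Perm.sign_ofSubtype]
        exact closure_sign hσm
      have hτ : Perm.ofSubtype τ ∈ alternatingGroup (Fin k) := by
        rw [Perm.mem_alternatingGroup, Perm.sign_ofSubtype]
        exact closure_sign hτm
      have e : (⟨_, hστ⟩ : alternatingGroup (Fin k)) = ⟨_, hσ⟩ * ⟨_, hτ⟩ :=
        Subtype.ext (map_mul _ σ τ)
      rw [e, ind_mul, map_mul]
      exact (ihσ hσ).mul_left (ihτ hτ)
    | inv σ hσm ih =>
      intro hinv
      have hσ : Perm.ofSubtype σ ∈ alternatingGroup (Fin k) := by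
        rw [Perm.mem_alternatingGroup, Perm.sign_ofSubtype]
        exact closure_sign hσm
      have e : (⟨_, hinv⟩ : alternatingGroup (Fin k)) = (⟨_, hσ⟩)⁻¹ :=
        Subtype.ext (map_inv _ σ)
      rw [e, ind_inv, map_inv]
      exact (ih hσ).inv_left
  have h2 := key π' hmem (by rw [he]; exact π.2)
  have e : (⟨Perm.ofSubtype π', by rw [he]; exact π.2⟩ : alternatingGroup (Fin k)) = π :=
    Subtype.ext he
  rwa [e] at h2
where
  closure_sign {p : Fin k → Prop} [DecidablePred p] {σ : Perm (Subtype p)}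
      (h : σ ∈ Subgroup.closure {σ : Perm (Subtype p) | ∃ a b c, Dist3 a b c ∧ σ = cyc3 a b c}) :
      Perm.sign σ = 1 := by
    refine Perm.mem_alternatingGroup.1 ((Subgroup.closure_le _).2 ?_ h)
    rintro _ ⟨a, b, c, hd, rfl⟩
    exact cyc3_mem_alternating hd

lemma commute_fix {q : Clopens S.X} {P : Cfg k} (hP : Distinct P) {f : Colour S k}
    (hf : Sends f q P fun i => (P i).1) : Commute (C.col f) (tdist C hk q P) := by
  rw [← restr_top f]
  refine clopen_induction (p := fun Q => Commute (C.col (restr f Q)) (tdist C hk q P))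
    ?_ ?_ ?_ ⊤
  · rw [restr_bot, map_one]; exact Commute.one_left _
  · intro A B hAB hA hB
    rw [restr_sup f hAB, map_mul]
    exact hA.mul_left hB
  · intro x
    classical
    let Qf : Clopens S.X := ⟨f ⁻¹' {f x}, f.isLocallyConstant.isClopen_fiber _⟩
    let W : Fin 3 → Clopens S.X := fun i =>
      if x ∈ trans (P i).2 q then trans (P i).2 q else (trans (P i).2 q)ᶜ
    refine ⟨Qf ⊓ (W 0 ⊓ (W 1 ⊓ W 2)), ⟨rfl, ?_⟩, fun Q hQ => ?_⟩
    · have : ∀ i, x ∈ W i := fun i => by
        simp only [W]; split_ifs with h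
        · exact h
        · exact h
      exact ⟨this 0, this 1, this 2⟩
    have hQW : ∀ i, Q ≤ W i := by
      intro i
      have h1 : Q ≤ W 0 ⊓ (W 1 ⊓ W 2) := hQ.trans inf_le_right
      fin_cases i
      · exact h1.trans inf_le_left
      · exact h1.trans (inf_le_right.trans inf_le_left)
      · exact h1.trans (inf_le_right.trans inf_le_right)
    have e : restr f Q = ind Q (f x) := by
      apply LocallyConstant.ext
      intro y
      by_cases hy : y ∈ Q
      · rw [restr_of_mem f hy, ind_of_mem hy]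
        exact (hQ hy).1
      · rw [restr_of_notMem f hy, ind_of_notMem hy]
    rw [e]
    refine commute_ind C hk hP fun i => ?_
    by_cases hx : x ∈ trans (P i).2 q
    · refine Or.inl ?_
      have := hf i (S.act (-(P i).2) x) (mem_trans.1 hx)
      rwa [act_act_neg] at this
    · refine Or.inr ((disjoint_compl_left).mono_left ((hQW i).trans ?_))
      simp only [W, if_neg hx, le_refl]

lemma conj_sends {q : Clopens S.X} {P : Cfg k} {D : Fin 3 → Fin k} (hP : Distinct P)
    (hD : Function.Injective D) {h : Colour S k} (hh : Sends h q P D) :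
    C.col h * tdist C hk q P * (C.col h)⁻¹ = tdist C hk q (recol D P) := by
  classical
  have hPD : Distinct (recol D P) := hD
  have hcard : (colours P ∪ colours (recol D P)).card ≤ 6 := by
    have := Finset.card_union_le (colours P) (colours (recol D P))
    have := card_colours P; have := card_colours (recol D P); omega
  obtain ⟨R, hRF, hRa, hRb⟩ := exists_rec hk P (colours (recol D P)) (by omega)
  let R' : Rec (recol D P) :=
    ⟨R.F, R.a, R.b, R.F_inj, hRF, hRa, hRb, R.aF, R.bF, R.ab⟩
  have hF : Distinct (recol R.F P) := R.F_inj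
  have hsend : Sends (R'.map q * h * (R.map q)⁻¹) q (recol R.F P) fun i => (recol R.F P i).1 := by
    have h1 := ((R.sends (hP.placed q)).inv).mul (f := h) (D' := D) (by exact hh)
    have h2 := h1.mul (f := R'.map q) (D' := R.F) (by exact R'.sends (hPD.placed q))
    rw [mul_assoc]
    exact h2
  have hc := commute_fix C hk hF hsend
  have e1 := R.move C hk hP q
  have e2 := R'.move C hk hPD q
  have e3 : recol R'.F (recol D P) = recol R.F P := rfl
  rw [e3] at e2
  rw [map_mul, map_mul, map_inv] at hc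
  calc C.col h * tdist C hk q P * (C.col h)⁻¹
      = (C.col (R'.map q))⁻¹ *
          ((C.col (R'.map q) * C.col h * (C.col (R.map q))⁻¹) *
            (C.col (R.map q) * tdist C hk q P * (C.col (R.map q))⁻¹) *
            (C.col (R'.map q) * C.col h * (C.col (R.map q))⁻¹)⁻¹) * C.col (R'.map q) := by group
    _ = (C.col (R'.map q))⁻¹ * tdist C hk q (recol R.F P) * C.col (R'.map q) := by
        rw [e1, hc.eq]; group
    _ = tdist C hk q (recol D P) := by rw [← e2]; group

end Vale.Agent.P196.B
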