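import Vale.Agent.P196.B.Piece
import Vale.Agent.P196.Cover.Lift

/-!
P196, module B: for every tower, the lifts of three-cycles of its cells define a homomorphism from
the locally constant families of even permutations of the cells into the group of a cover.
-/

namespace Vale.Agent.P196.B

open SFT TopologicalSpace Equiv

variable {S : SFT} {k : ℕ}

/-- An alternating group is exhausted by a subgroup containing the three-cycles. -/
lemma alt_mem {α : Type*} [DecidableEq α] [Fintype α] (K : Subgroup (alternatingGroup α))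
    (h : ∀ a b c, ∀ hd : Dist3 a b c, (⟨cyc3 a b c, cyc3_mem_alternating hd⟩ :
      alternatingGroup α) ∈ K) (σ : alternatingGroup α) : σ ∈ K := by
  have hle : alternatingGroup α ≤ K.map (alternatingGroup α).subtype := by
    refine CycleFamily.alternating_le.trans ((Subgroup.closure_le _).2 ?_)
    rintro _ ⟨a, b, c, hd, rfl⟩
    exact ⟨_, h a b c hd, rfl⟩
  obtain ⟨τ, hτ, e⟩ := hle σ.2
  rwa [← Subtype.ext (show (τ : Perm α) = σ from e)]

/-- The colouring on `q` as a homomorphism in the permutation. -/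
noncomputable def indHom (q : Clopens S.X) : alternatingGroup (Fin k) →* Colour S k where
  toFun σ := ind q σ
  map_one' := ind_one q
  map_mul' := ind_mul q

/-- The point of a cell. -/
def pc (s : Fin k × V) (x : S.X) : Fin k × S.X := (s.1, S.act s.2 x)

variable (C : Cover S k) (hk : 12 ≤ k)
include hk

/-! ### The permutation of a lift -/

lemma proj_T_apply {q : Clopens S.X} {P : Cfg k} (hP : Placed q P) (i : Fin 3) {x : S.X}
    (hx : x ∈ q) : C.proj (T C hk q P) (pt P i x) = pt P (i + 1) x := by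
  obtain ⟨⟨f, D⟩, hD, hf⟩ := exists_sends hk hP
  have hD' : Distinct (recol D P) := hD
  obtain ⟨d, hd⟩ := exists_comp hk (recol D P)
  set t := comp d (ext (recol D P)) with htdef
  have htP : ∀ j, t (D j) = (P j).2 := fun j => by
    rw [htdef, comp_of_ne (fun e => hd (by rw [← e]; exact mem_colours (recol D P) j))]
    exact ext_apply hD' j
  have hcol : ∀ j, colourPerm S k f (pt P j x) = pt (recol D P) j x :=
    fun j => colourPerm_pt hf j hx
  rw [T_eq C hk hD hf, tdist_eq C hk hD' (comp_sum d (ext (recol D P))) htP]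
  simp only [map_mul, map_inv, C.proj_col, C.proj_tr t (comp_sum _ _), ← htdef, Perm.mul_apply]
  rw [Perm.inv_eq_iff_eq, hcol i, hcol (i + 1)]
  have hinv : (S.translation t)⁻¹ (pt (recol D P) i x) = (D i, x) := by
    rw [Perm.inv_eq_iff_eq]
    exact Prod.ext rfl (by simp [pt, recol, SFT.translation, htP])
  have hσ : colourPerm S k (ind q (alt3 (D 0) (D 1) (D 2))) (D i, x) = (D (i + 1), x) := by
    refine Prod.ext ?_ rfl
    show (ind q (alt3 (D 0) (D 1) (D 2)) x : Perm (Fin k)) (D i) = D (i + 1)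
    have hd3 : Dist3 (D 0) (D 1) (D 2) := hD'.dist3
    rw [ind_of_mem hx, alt3_coe hd3]
    fin_cases i
    · exact cyc3_fst hd3
    · exact cyc3_snd hd3
    · exact cyc3_thd _ _ _
  rw [hinv]
  symm
  show pt (recol D P) (i + 1) x =
    S.translation t (colourPerm S k (ind q (alt3 (D 0) (D 1) (D 2))) (D i, x))
  rw [hσ]
  exact Prod.ext rfl (by simp [pt, recol, SFT.translation, htP])

lemma proj_T_fix {q : Clopens S.X} {P : Cfg k} (hP : Placed q P) {p : Fin k × S.X}
    (hp : ∀ i, ∀ x ∈ q, p ≠ pt P i x) : C.proj (T C hk q P) p = p := by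
  obtain ⟨⟨f, D⟩, hD, hf⟩ := exists_sends hk hP
  have hD' : Distinct (recol D P) := hD
  obtain ⟨d, hd⟩ := exists_comp hk (recol D P)
  set t := comp d (ext (recol D P)) with htdef
  have htP : ∀ j, t (D j) = (P j).2 := fun j => by
    rw [htdef, comp_of_ne (fun e => hd (by rw [← e]; exact mem_colours (recol D P) j))]
    exact ext_apply hD' j
  rw [T_eq C hk hD hf, tdist_eq C hk hD' (comp_sum d (ext (recol D P))) htP]
  simp only [map_mul, map_inv, C.proj_col, C.proj_tr t (comp_sum _ _), ← htdef, Perm.mul_apply]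
  set p' := (S.translation t)⁻¹ (colourPerm S k f p) with hp'def
  have hfix : colourPerm S k (ind q (alt3 (D 0) (D 1) (D 2))) p' = p' := by
    refine Prod.ext ?_ rfl
    show (ind q (alt3 (D 0) (D 1) (D 2)) p'.2 : Perm (Fin k)) p'.1 = p'.1
    by_contra hne
    have hq : p'.2 ∈ q := by
      by_contra hq
      rw [ind_of_notMem hq] at hne
      exact hne rfl
    obtain ⟨i, hi⟩ : ∃ i, p'.1 = D i := by
      rcases alt3_moves (ind_moves hne) with e | e | e <;> exact ⟨_, e⟩
    refine hp i p'.2 hq ((colourPerm S k f).injective ?_)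
    rw [colourPerm_pt hf i hq]
    have e : colourPerm S k f p = S.translation t p' := by
      rw [hp'def]; exact ((S.translation t).apply_symm_apply _).symm
    rw [e]
    exact Prod.ext hi (by simp [pt, recol, SFT.translation, hi, htP])
  rw [Perm.inv_eq_iff_eq]
  symm
  show colourPerm S k f p =
    S.translation t (colourPerm S k (ind q (alt3 (D 0) (D 1) (D 2))) p')
  rw [hfix, hp'def]
  exact ((S.translation t).apply_symm_apply _).symm

/-! ### Four cells in distinct colours -/

omit C in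
lemma exists_send_many {ι : Type*} [Fintype ι] [DecidableEq ι] (c : ι → Fin k × V)
    {q : Clopens S.X}
    (hc : ∀ i j, ∀ x ∈ q, ∀ y ∈ q, (c i).1 = (c j).1 → S.act (c i).2 x = S.act (c j).2 y → i = j)
    (hι : Fintype.card ι ≤ 4) :
    ∃ (f : Colour S k) (D : ι → Fin k), Function.Injective D ∧
      ∀ i, ∀ x ∈ q, (f (S.act (c i).2 x) : Perm (Fin k)) (c i).1 = D i := by
  obtain ⟨g, hg⟩ := exists_fresh (Finset.univ.image fun i => (c i).1) (Fintype.card ι + 2) (by
    have := Finset.card_image_le (s := (Finset.univ : Finset ι)) (f := fun i => (c i).1)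
    rw [Finset.card_univ] at this
    omega)
  let e := Fintype.equivFin ι
  let D : ι → Fin k := fun i => g (Fin.castAdd 2 (e i))
  set a := g (Fin.natAdd (Fintype.card ι) 0) with hadef
  set b := g (Fin.natAdd (Fintype.card ι) 1) with hbdef
  have hD : Function.Injective D := fun i j h => e.injective (Fin.castAdd_injective _ _ (g.injective h))
  have hDa : ∀ i, D i ≠ a := fun i h => by
    have := congrArg Fin.val (g.injective h); simp at this; omega
  have hDb : ∀ i, D i ≠ b := fun i h => by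
    have := congrArg Fin.val (g.injective h); simp at this; omega
  have hab : a ≠ b := g.injective.ne (by simp [Fin.ext_iff])
  have hfresh : ∀ i l, (c i).1 ≠ g l := fun i l h =>
    hg l (by rw [← h]; exact Finset.mem_image.2 ⟨i, Finset.mem_univ _, rfl⟩)
  suffices h : ∀ s : Finset ι, ∃ f : Colour S k,
      (∀ i ∈ s, ∀ x ∈ q, (f (S.act (c i).2 x) : Perm (Fin k)) (c i).1 = D i) ∧
      (∀ i, i ∉ s → ∀ x ∈ q, (f (S.act (c i).2 x) : Perm (Fin k)) (c i).1 = (c i).1) by
    obtain ⟨f, hf, -⟩ := h Finset.univ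
    exact ⟨f, D, hD, fun i => hf i (Finset.mem_univ i)⟩
  intro s
  induction s using Finset.induction with
  | empty => exact ⟨1, by simp, fun i _ x _ => by simp⟩
  | @insert j s hj ih =>
    obtain ⟨f, hf1, hf2⟩ := ih
    refine ⟨ind (trans (c j).2 q) (dt (c j).1 (D j) a b) * f, ?_, ?_⟩
    · intro i hi x hx
      rw [LocallyConstant.mul_apply, Subgroup.coe_mul, Perm.mul_apply]
      by_cases hij : i = j
      · subst hij
        rw [hf2 i hj x hx, ind_of_mem (act_mem_trans hx),
          dt_fst (hfresh i _) hab (hfresh i _) (hfresh i _)]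
      · rw [hf1 i (Finset.mem_of_mem_insert_of_ne hi hij) x hx]
        by_cases hm : S.act (c i).2 x ∈ trans (c j).2 q
        · rw [ind_of_mem hm]
          exact dt_fixes (hfresh j _).symm (hD.ne hij) (hDa i) (hDb i)
        · rw [ind_of_notMem hm]; rfl
    · intro i hi x hx
      simp only [Finset.mem_insert, not_or] at hi
      rw [LocallyConstant.mul_apply, Subgroup.coe_mul, Perm.mul_apply, hf2 i hi.2 x hx]
      by_cases hm : S.act (c i).2 x ∈ trans (c j).2 q
      · rw [ind_of_mem hm]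
        refine dt_fixes (fun h => hi.1 ?_) (hfresh i _) (hfresh i _) (hfresh i _)
        exact hc i j x hx _ (mem_trans.1 hm) h (act_act_neg _ _).symm
      · rw [ind_of_notMem hm]; rfl

lemma exists_model {ι : Type*} [Fintype ι] [DecidableEq ι] (c : ι → Fin k × V)
    {q : Clopens S.X}
    (hc : ∀ i j, ∀ x ∈ q, ∀ y ∈ q, (c i).1 = (c j).1 → S.act (c i).2 x = S.act (c j).2 y → i = j)
    (hι : Fintype.card ι ≤ 4) :
    ∃ (D : ι → Fin k) (φ : alternatingGroup (Fin k) →* C.E), Function.Injective D ∧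
      ∀ α β γ, Dist3 α β γ → T C hk q ![c α, c β, c γ] = φ (alt3 (D α) (D β) (D γ)) := by
  obtain ⟨f, D, hD, hf⟩ := exists_send_many hk c hc hι
  obtain ⟨g, hg⟩ := exists_fresh (Finset.univ.image D) 1 (by
    have := Finset.card_image_le (s := (Finset.univ : Finset ι)) (f := D)
    rw [Finset.card_univ] at this
    omega)
  set u := comp (g 0) (fun j => ∑ i, if j = D i then (c i).2 else 0) with hudef
  have hu : ∀ i, u (D i) = (c i).2 := fun i => by
    rw [hudef, comp_of_ne (fun e => hg 0 (by rw [← e]; exact Finset.mem_image.2 ⟨i, Finset.mem_univ _, rfl⟩))]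
    rw [Finset.sum_eq_single i (fun j _ hj => if_neg fun e => hj (hD e).symm)
      (fun h => absurd (Finset.mem_univ i) h), if_pos rfl]
  refine ⟨D, (MulAut.conj ((C.col f)⁻¹ * C.tr u)).toMonoidHom.comp (C.col.comp (indHom q)), hD,
    fun α β γ h => ?_⟩
  have hinj : Function.Injective ![D α, D β, D γ] := by
    obtain ⟨h1, h2, h3⟩ := h
    intro i j e
    fin_cases i <;> fin_cases j <;>
      simp [hD.ne h1, (hD.ne h1).symm, hD.ne h2, (hD.ne h2).symm, hD.ne h3, (hD.ne h3).symm] at e ⊢
  have hs : Sends f q ![c α, c β, c γ] ![D α, D β, D γ] := by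
    intro i x hx
    fin_cases i <;> exact hf _ x hx
  rw [T_eq C hk hinj hs, tdist_eq C hk (P := recol ![D α, D β, D γ] ![c α, c β, c γ]) hinj
    (comp_sum (g 0) (fun j => ∑ i, if j = D i then (c i).2 else 0))
    (fun i => by fin_cases i <;> exact hu _)]
  show (C.col f)⁻¹ * (C.tr u * C.col (ind q (alt3 (D α) (D β) (D γ))) * (C.tr u)⁻¹) * C.col f =
    (C.col f)⁻¹ * C.tr u * C.col (ind q (alt3 (D α) (D β) (D γ))) * ((C.col f)⁻¹ * C.tr u)⁻¹
  group

/-! ### The cells of a tower -/

omit hk C in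
/-- The base of a tower. -/
def baseC (U : S.Tower k) : Clopens S.X := ⟨U.base, U.clopen⟩

omit hk C in
lemma cells_sep (U : S.Tower k) {s t : U.cells} {x y : S.X} (hx : x ∈ baseC U)
    (hy : y ∈ baseC U) (h : pc s.1 x = pc t.1 y) : s = t ∧ x = y := by
  have := U.inj (a₁ := (⟨x, hx⟩, s)) (a₂ := (⟨y, hy⟩, t)) h
  simp only [Prod.mk.injEq] at this
  exact ⟨this.2, congrArg Subtype.val this.1⟩

variable (U : S.Tower k)

omit hk C in
/-- Three cells as a configuration. -/
def cfg {U : S.Tower k} (a b c : U.cells) : Cfg k := ![a.1, b.1, c.1]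

omit hk C in
lemma cfg_placed {q : Clopens S.X} (hq : q ≤ baseC U) {a b c : U.cells} (h : Dist3 a b c) :
    Placed q (cfg a b c) := by
  intro i j x hx y hy h1 h2
  have key : ∀ i : Fin 3, cfg a b c i = (![a, b, c] i).1 := fun i => by fin_cases i <;> rfl
  rw [key, key] at h1 h2
  have e : ![a, b, c] i = ![a, b, c] j := (cells_sep U (hq hx) (hq hy) (Prod.ext h1 h2)).1
  obtain ⟨ab, ac, bc⟩ := h
  fin_cases i <;> fin_cases j <;>
    simp [ab, ab.symm, ac, ac.symm, bc, bc.symm] at e ⊢

omit hk C in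
lemma pt_cfg (a b c : U.cells) (i : Fin 3) (x : S.X) :
    pt (cfg a b c) i x = pc (![a, b, c] i).1 x := by
  fin_cases i <;> rfl

lemma proj_cfg_cell {q : Clopens S.X} (hq : q ≤ baseC U) {a b c : U.cells} (h : Dist3 a b c)
    (s : U.cells) {x : S.X} (hx : x ∈ q) :
    C.proj (T C hk q (cfg a b c)) (pc s.1 x) = pc (cyc3 a b c s).1 x := by
  have hP := cfg_placed U hq h
  by_cases h1 : s = a
  · subst h1; rw [cyc3_fst h]; exact proj_T_apply C hk hP 0 hx
  by_cases h2 : s = b
  · subst h2; rw [cyc3_snd h]; exact proj_T_apply C hk hP 1 hx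
  by_cases h3 : s = c
  · subst h3; rw [cyc3_thd]; exact proj_T_apply C hk hP 2 hx
  rw [cyc3_of_ne h1 h2 h3]
  refine proj_T_fix C hk hP fun i y hy e => ?_
  rw [pt_cfg] at e
  have := (cells_sep U (hq hx) (hq hy) e).1
  fin_cases i <;> simp_all

lemma proj_cfg_out {q : Clopens S.X} (hq : q ≤ baseC U) {a b c : U.cells} (h : Dist3 a b c)
    (s : U.cells) {x : S.X} (hxU : x ∈ baseC U) (hx : x ∉ q) :
    C.proj (T C hk q (cfg a b c)) (pc s.1 x) = pc s.1 x := by
  refine proj_T_fix C hk (cfg_placed U hq h) fun i y hy e => hx ?_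
  rw [pt_cfg] at e
  rw [(cells_sep U hxU (hq hy) e).2]
  exact hy

variable (hfree : ∀ x : S.X, ∀ v : V, S.act v x = x → v = 0)
include hfree

omit U in
lemma conj_cfg {U : S.Tower k} {q : Clopens S.X} (hq : q ≤ baseC U) {g : C.E}
    {x y z x' y' z' : U.cells} (h : Dist3 x y z)
    (hg : ∀ u ∈ q, C.proj g (pc x.1 u) = pc x'.1 u ∧ C.proj g (pc y.1 u) = pc y'.1 u ∧
      C.proj g (pc z.1 u) = pc z'.1 u) :
    g * T C hk q (cfg x y z) * g⁻¹ = T C hk q (cfg x' y' z') := by
  refine conj_T C hk hfree g (cfg_placed U hq h) fun i u hu => ?_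
  rw [pt_cfg, pt_cfg]
  obtain ⟨h1, h2, h3⟩ := hg u hu
  fin_cases i
  · exact h1
  · exact h2
  · exact h3

/-- The lifts of the three-cycles of cells over `q`. -/
noncomputable def family (Q : Clopens S.X) : CycleFamily U.cells C.E where
  t a b c := T C hk (Q ⊓ baseC U) (cfg a b c)
  rot a b c h := by
    have := conj_cfg C hk hfree (inf_le_right (a := Q)) (g := T C hk (Q ⊓ baseC U) (cfg a b c))
      (x' := b) (y' := c) (z' := a) h fun u hu => by
        refine ⟨?_, ?_, ?_⟩ <;> rw [proj_cfg_cell C hk U inf_le_right h _ hu]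
        · rw [cyc3_fst h]
        · rw [cyc3_snd h]
        · rw [cyc3_thd]
    rw [mul_inv_cancel_right] at this
    exact this
  flip a b c h := by
    obtain ⟨D, φ, hD, hφ⟩ := exists_model C hk (fun i => (![a, b, c] i).1)
      (q := Q ⊓ baseC U) (fun i j x hx y hy e1 e2 => cfg_placed U inf_le_right h i j x hx y hy
        (by fin_cases i <;> fin_cases j <;> exact e1) (by fin_cases i <;> fin_cases j <;> exact e2))
      (by simp)
    have h012 : Dist3 (0 : Fin 3) 1 2 := ⟨by decide, by decide, by decide⟩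
    have hD3 : Dist3 (D 0) (D 1) (D 2) := ⟨hD.ne h012.1, hD.ne h012.2.1, hD.ne h012.2.2⟩
    show T C hk _ (cfg a b c) * T C hk _ (cfg a c b) = 1
    rw [show cfg a b c = ![(![a, b, c] 0).1, (![a, b, c] 1).1, (![a, b, c] 2).1] from rfl,
      show cfg a c b = ![(![a, b, c] 0).1, (![a, b, c] 2).1, (![a, b, c] 1).1] from rfl,
      hφ _ _ _ h012, hφ _ _ _ h012.flip, ← map_mul]
    convert map_one φ
    apply Subtype.ext
    rw [Subgroup.coe_mul, alt3_coe hD3, alt3_coe hD3.flip, cyc3_mul_flip hD3]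
    rfl
  sq a b c h := by
    obtain ⟨D, φ, hD, hφ⟩ := exists_model C hk (fun i => (![a, b, c] i).1)
      (q := Q ⊓ baseC U) (fun i j x hx y hy e1 e2 => cfg_placed U inf_le_right h i j x hx y hy
        (by fin_cases i <;> fin_cases j <;> exact e1) (by fin_cases i <;> fin_cases j <;> exact e2))
      (by simp)
    have h012 : Dist3 (0 : Fin 3) 1 2 := ⟨by decide, by decide, by decide⟩
    have hD3 : Dist3 (D 0) (D 1) (D 2) := ⟨hD.ne h012.1, hD.ne h012.2.1, hD.ne h012.2.2⟩
    show T C hk _ (cfg a b c) * T C hk _ (cfg a b c) = T C hk _ (cfg a c b)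
    rw [show cfg a b c = ![(![a, b, c] 0).1, (![a, b, c] 1).1, (![a, b, c] 2).1] from rfl,
      show cfg a c b = ![(![a, b, c] 0).1, (![a, b, c] 2).1, (![a, b, c] 1).1] from rfl,
      hφ _ _ _ h012, hφ _ _ _ h012.flip, ← map_mul]
    congr 1
    apply Subtype.ext
    rw [Subgroup.coe_mul, alt3_coe hD3, alt3_coe hD3.flip, cyc3_sq hD3]
  conj a b c x y z h h' :=
    conj_cfg C hk hfree inf_le_right h' fun u hu =>
      ⟨proj_cfg_cell C hk U inf_le_right h x hu, proj_cfg_cell C hk U inf_le_right h y hu,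
        proj_cfg_cell C hk U inf_le_right h z hu⟩
  mix a b c n h1 h2 h3 := by
    have hinj : Function.Injective ![a, b, c, n] := by
      obtain ⟨ab, ac, bc⟩ := h1
      obtain ⟨na, nb, -⟩ := h2
      intro i j e
      fin_cases i <;> fin_cases j <;>
        simp [ab, ab.symm, ac, ac.symm, bc, bc.symm, na, na.symm, nb, nb.symm, h3, h3.symm] at e ⊢
    obtain ⟨D, φ, hD, hφ⟩ := exists_model C hk (fun i => (![a, b, c, n] i).1)
      (q := Q ⊓ baseC U) (fun i j x hx y hy e1 e2 => hinj
        (cells_sep U (inf_le_right (a := Q) hx) (inf_le_right (a := Q) hy) (Prod.ext e1 e2)).1)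
      (by simp)
    have i1 : Dist3 (0 : Fin 4) 1 2 := ⟨by decide, by decide, by decide⟩
    have i2 : Dist3 (3 : Fin 4) 0 1 := ⟨by decide, by decide, by decide⟩
    have i3 : Dist3 (2 : Fin 4) 0 3 := ⟨by decide, by decide, by decide⟩
    have hd : ∀ {i j l : Fin 4}, Dist3 i j l → Dist3 (D i) (D j) (D l) :=
      fun h => ⟨hD.ne h.1, hD.ne h.2.1, hD.ne h.2.2⟩
    show T C hk _ (cfg c a n) * T C hk _ (cfg n a b) = T C hk _ (cfg a b c)
    rw [show cfg c a n = ![(![a, b, c, n] 2).1, (![a, b, c, n] 0).1, (![a, b, c, n] 3).1] from rfl,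
      show cfg n a b = ![(![a, b, c, n] 3).1, (![a, b, c, n] 0).1, (![a, b, c, n] 1).1] from rfl,
      show cfg a b c = ![(![a, b, c, n] 0).1, (![a, b, c, n] 1).1, (![a, b, c, n] 2).1] from rfl,
      hφ _ _ _ i3, hφ _ _ _ i2, hφ _ _ _ i1, ← map_mul]
    congr 1
    apply Subtype.ext
    rw [Subgroup.coe_mul, alt3_coe (hd i3), alt3_coe (hd i2), alt3_coe (hd i1),
      cyc3_mix (hd i1) (hd i2) (hD.ne (by decide))]

/-- The lift over `q` of the alternating group of the cells. -/
noncomputable def phi (Q : Clopens S.X) : alternatingGroup U.cells →* C.E :=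
  (family C hk U hfree Q).exists_hom.choose

lemma phi_cyc (Q : Clopens S.X) {a b c : U.cells} (h : Dist3 a b c) :
    phi C hk U hfree Q ⟨cyc3 a b c, cyc3_mem_alternating h⟩ =
      T C hk (Q ⊓ baseC U) (cfg a b c) :=
  (family C hk U hfree Q).exists_hom.choose_spec a b c h

lemma phi_out {Q : Clopens S.X} (hQ : Q ⊓ baseC U = ⊥) (σ : alternatingGroup U.cells) :
    phi C hk U hfree Q σ = 1 := by
  refine MonoidHom.mem_ker.1 (alt_mem (MonoidHom.ker (phi C hk U hfree Q)) (fun a b c h => ?_) σ)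
  rw [MonoidHom.mem_ker, phi_cyc C hk U hfree Q h, hQ, T_bot]

lemma phi_commute {A B : Clopens S.X} (hAB : Disjoint A B) (σ τ : alternatingGroup U.cells) :
    Commute (phi C hk U hfree A σ) (phi C hk U hfree B τ) := by
  refine (alt_mem ((Subgroup.centralizer {phi C hk U hfree B τ}).comap (phi C hk U hfree A))
    (fun a b c h => ?_) σ : _) |> fun h => (Subgroup.mem_centralizer_singleton_iff.1 h)
  rw [Subgroup.mem_comap, Subgroup.mem_centralizer_singleton_iff]
  have := alt_mem ((Subgroup.centralizer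
      {phi C hk U hfree A ⟨cyc3 a b c, cyc3_mem_alternating h⟩}).comap (phi C hk U hfree B))
    (fun x y z h' => ?_) τ
  · rw [Subgroup.mem_comap, Subgroup.mem_centralizer_singleton_iff] at this
    exact this.symm
  rw [Subgroup.mem_comap, Subgroup.mem_centralizer_singleton_iff, phi_cyc C hk U hfree A h,
    phi_cyc C hk U hfree B h']
  have hd : Disjoint (A ⊓ baseC U) (B ⊓ baseC U) := hAB.mono inf_le_left inf_le_left
  have := conj_cfg C hk hfree (inf_le_right (a := B)) (g := T C hk (A ⊓ baseC U) (cfg a b c))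
    (x' := x) (y' := y) (z' := z) h' fun u hu =>
      ⟨proj_cfg_out C hk U inf_le_right h x hu.2 (not_mem_of_disjoint hd.symm hu),
        proj_cfg_out C hk U inf_le_right h y hu.2 (not_mem_of_disjoint hd.symm hu),
        proj_cfg_out C hk U inf_le_right h z hu.2 (not_mem_of_disjoint hd.symm hu)⟩
  exact (mul_inv_eq_iff_eq_mul.1 this).symm

lemma phi_sup {A B : Clopens S.X} (hAB : Disjoint A B) (σ : alternatingGroup U.cells) :
    phi C hk U hfree (A ⊔ B) σ = phi C hk U hfree A σ * phi C hk U hfree B σ := by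
  let ψ : alternatingGroup U.cells →* C.E :=
    { toFun := fun σ => phi C hk U hfree A σ * phi C hk U hfree B σ
      map_one' := by simp
      map_mul' := fun σ τ => by
        rw [map_mul, map_mul]
        exact Commute.mul_mul_mul_comm (phi_commute C hk U hfree hAB τ σ) _ _ }
  show phi C hk U hfree (A ⊔ B) σ = ψ σ
  refine alt_mem (MonoidHom.eqLocus (phi C hk U hfree (A ⊔ B)) ψ) (fun a b c h => ?_) σ
  show phi C hk U hfree (A ⊔ B) _ = phi C hk U hfree A _ * phi C hk U hfree B _
  rw [phi_cyc C hk U hfree _ h, phi_cyc C hk U hfree _ h, phi_cyc C hk U hfree _ h, inf_sup_right,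
    T_sup C hk (hAB.mono inf_le_left inf_le_left)
      ((cfg_placed U (inf_le_right (a := A ⊔ B)) h).mono (inf_sup_right A B (baseC U)).ge)]

/-! ### Locally constant families -/

/-- The subgroup of lifts below `Q`. -/
noncomputable def below (Q : Clopens S.X) : Subgroup C.E :=
  Subgroup.closure {g | ∃ Q' ≤ Q, ∃ σ, g = phi C hk U hfree Q' σ}

lemma below_commute {A B : Clopens S.X} (hAB : Disjoint A B) {g h : C.E}
    (hg : g ∈ below C hk U hfree A) (hh : h ∈ below C hk U hfree B) : Commute g h := by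
  have h1 : below C hk U hfree A ≤
      Subgroup.centralizer (below C hk U hfree B : Set C.E) := by
    refine (Subgroup.closure_le _).2 ?_
    rintro _ ⟨A', hA', σ, rfl⟩
    rw [SetLike.mem_coe, Subgroup.mem_centralizer_iff]
    intro h hh
    induction hh using Subgroup.closure_induction with
    | mem h hh =>
      obtain ⟨B', hB', τ, rfl⟩ := hh
      exact ((phi_commute C hk U hfree (hAB.mono hA' hB') σ τ).eq).symm
    | one => simp
    | mul x y _ _ ihx ihy => exact (Commute.mul_left ihx ihy : Commute (x * y) _)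
    | inv x _ ih => exact (Commute.inv_left ih : Commute x⁻¹ _)
  exact ((Subgroup.mem_centralizer_iff.1 (h1 hg)) h hh).symm

/-- `ε` gives the values of the family `f` below each clopen set. -/
structure Val (f : LocallyConstant U.base (alternatingGroup U.cells))
    (ε : Clopens S.X → C.E) : Prop where
  add : ∀ A B, Disjoint A B → ε (A ⊔ B) = ε A * ε B
  out : ∀ Q, Q ≤ (baseC U)ᶜ → ε Q = 1
  loc : ∀ x : U.base, ∃ W : Clopens S.X, x.1 ∈ W ∧
    ∀ Q ≤ W, ε Q = phi C hk U hfree Q (f x)
  mem : ∀ Q, ε Q ∈ below C hk U hfree Q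

variable {U}

omit U in
lemma Val.unique {U : S.Tower k} {f : LocallyConstant U.base (alternatingGroup U.cells)}
    {ε ε' : Clopens S.X → C.E} (h : Val C hk U hfree f ε) (h' : Val C hk U hfree f ε') :
    ∀ Q, ε Q = ε' Q := by
  refine clopen_induction (p := fun Q => ε Q = ε' Q) ?_ ?_ fun x => ?_
  · rw [h.out ⊥ bot_le, h'.out ⊥ bot_le]
  · intro A B hd hA hB; rw [h.add A B hd, h'.add A B hd, hA, hB]
  · by_cases hx : x ∈ baseC U
    · obtain ⟨W, hxW, hW⟩ := h.loc ⟨x, hx⟩
      obtain ⟨W', hxW', hW'⟩ := h'.loc ⟨x, hx⟩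
      exact ⟨W ⊓ W', ⟨hxW, hxW'⟩, fun Q hQ => by
        rw [hW Q (hQ.trans inf_le_left), hW' Q (hQ.trans inf_le_right)]⟩
    · exact ⟨(baseC U)ᶜ, hx, fun Q hQ => by rw [h.out Q hQ, h'.out Q hQ]⟩

lemma val_one : Val C hk U hfree 1 (fun _ => 1) where
  add _ _ _ := (mul_one _).symm
  out _ _ := rfl
  loc _ := ⟨⊤, trivial, fun _ _ => (map_one _).symm⟩
  mem _ := one_mem _

lemma Val.mul {f f' : LocallyConstant U.base (alternatingGroup U.cells)}
    {ε ε' : Clopens S.X → C.E} (h : Val C hk U hfree f ε) (h' : Val C hk U hfree f' ε') :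
    Val C hk U hfree (f * f') (fun Q => ε Q * ε' Q) where
  add A B hd := by
    rw [h.add A B hd, h'.add A B hd]
    exact Commute.mul_mul_mul_comm (below_commute C hk U hfree hd (h'.mem A) (h.mem B)).symm _ _
  out Q hQ := by rw [h.out Q hQ, h'.out Q hQ, mul_one]
  loc x := by
    obtain ⟨W, hxW, hW⟩ := h.loc x
    obtain ⟨W', hxW', hW'⟩ := h'.loc x
    exact ⟨W ⊓ W', ⟨hxW, hxW'⟩, fun Q hQ => by
      rw [hW Q (hQ.trans inf_le_left), hW' Q (hQ.trans inf_le_right),
        LocallyConstant.mul_apply, map_mul]⟩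
  mem Q := mul_mem (h.mem Q) (h'.mem Q)

lemma Val.inv {f : LocallyConstant U.base (alternatingGroup U.cells)}
    {ε : Clopens S.X → C.E} (h : Val C hk U hfree f ε) :
    Val C hk U hfree f⁻¹ (fun Q => (ε Q)⁻¹) where
  add A B hd := by
    rw [h.add A B hd, mul_inv_rev]
    exact ((below_commute C hk U hfree hd (h.mem A) (h.mem B)).inv_inv).eq.symm
  out Q hQ := by rw [h.out Q hQ, inv_one]
  loc x := by
    obtain ⟨W, hxW, hW⟩ := h.loc x
    exact ⟨W, hxW, fun Q hQ => by rw [hW Q hQ, LocallyConstant.inv_apply, map_inv]⟩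
  mem Q := inv_mem (h.mem Q)

omit hk C hfree in
lemma isClopen_image {A : Set U.base} (hA : IsClopen A) :
    IsClopen (Subtype.val '' A : Set S.X) :=
  ⟨U.clopen.1.isClosedEmbedding_subtypeVal.isClosedMap A hA.1,
    U.clopen.2.isOpenEmbedding_subtypeVal.isOpenMap A hA.2⟩

lemma val_indicator {A : Set U.base} (hA : IsClopen A) (σ : alternatingGroup U.cells) :
    Val C hk U hfree (LocallyConstant.mulIndicator (LocallyConstant.const U.base σ) hA)
      (fun Q => phi C hk U hfree (Q ⊓ ⟨Subtype.val '' A, isClopen_image hA⟩) σ) where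
  add A' B' hd := by
    rw [inf_sup_right]
    exact phi_sup C hk U hfree (hd.mono inf_le_left inf_le_left) σ
  out Q hQ := phi_out C hk U hfree (le_bot_iff.1 ((inf_le_inf_right _
    (inf_le_left.trans hQ)).trans_eq (compl_inf_eq_bot))) σ
  loc x := by
    by_cases hx : x ∈ A
    · refine ⟨⟨Subtype.val '' A, isClopen_image hA⟩, ⟨x, hx, rfl⟩, fun Q hQ => ?_⟩
      rw [inf_eq_left.2 hQ]
      simp [hx]
    · refine ⟨(⟨Subtype.val '' A, isClopen_image hA⟩ : Clopens S.X)ᶜ,
        fun ⟨y, hy, e⟩ => hx (Subtype.ext e ▸ hy), fun Q hQ => ?_⟩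
      have e : Q ⊓ ⟨Subtype.val '' A, isClopen_image hA⟩ = ⊥ :=
        le_bot_iff.1 ((inf_le_inf_right _ hQ).trans_eq compl_inf_eq_bot)
      rw [e, phi_out C hk U hfree (bot_inf_eq _)]
      simp [hx]
  mem Q := Subgroup.subset_closure ⟨_, inf_le_left, σ, rfl⟩

lemma exists_val (f : LocallyConstant U.base (alternatingGroup U.cells)) :
    ∃ ε, Val C hk U hfree f ε :=
  lc_mem_of_indicators
    { carrier := {f | ∃ ε, Val C hk U hfree f ε}
      one_mem' := ⟨_, val_one C hk hfree⟩
      mul_mem' := fun ⟨_, h⟩ ⟨_, h'⟩ => ⟨_, h.mul C hk hfree h'⟩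
      inv_mem' := fun ⟨_, h⟩ => ⟨_, h.inv C hk hfree⟩ }
    (fun _ hA σ => ⟨_, val_indicator C hk hfree hA σ⟩) f

variable (U) in
/-- The lift of the group of a tower. -/
noncomputable def towerHom : LocallyConstant U.base (alternatingGroup U.cells) →* C.E where
  toFun f := (exists_val C hk hfree f).choose ⊤
  map_one' :=
    ((exists_val C hk hfree (U := U) 1).choose_spec.unique C hk hfree (val_one C hk hfree)) ⊤
  map_mul' f f' :=
    ((exists_val C hk hfree (f * f')).choose_spec.unique C hk hfree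
      ((exists_val C hk hfree f).choose_spec.mul C hk hfree
        (exists_val C hk hfree f').choose_spec)) ⊤

lemma towerHom_indicator {A : Set U.base} (hA : IsClopen A) (σ : alternatingGroup U.cells) :
    towerHom C hk U hfree (LocallyConstant.mulIndicator (LocallyConstant.const U.base σ) hA) =
      phi C hk U hfree ⟨Subtype.val '' A, isClopen_image hA⟩ σ := by
  have := (exists_val C hk hfree _).choose_spec.unique C hk hfree
    (val_indicator C hk hfree hA σ) ⊤
  rw [top_inf_eq] at this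
  exact this

theorem proj_towerHom (f : LocallyConstant U.base (alternatingGroup U.cells)) :
    C.proj (towerHom C hk U hfree f) = U.alt f := by
  suffices h : f ∈ MonoidHom.eqLocus (C.proj.comp (towerHom C hk U hfree)) U.alt from h
  refine lc_mem_of_indicators _ (fun A hA σ => ?_) f
  show C.proj (towerHom C hk U hfree _) = U.alt _
  rw [towerHom_indicator C hk hfree hA σ]
  let ι : alternatingGroup U.cells →* LocallyConstant U.base (alternatingGroup U.cells) :=
    { toFun := fun σ => LocallyConstant.mulIndicator (LocallyConstant.const U.base σ) hA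
      map_one' := LocallyConstant.ext fun y => by simp
      map_mul' := fun a b => LocallyConstant.ext fun y => by
        by_cases hy : y ∈ A <;> simp [hy] }
  show (C.proj.comp (phi C hk U hfree _)) σ = (U.alt.comp ι) σ
  refine alt_mem (MonoidHom.eqLocus (C.proj.comp (phi C hk U hfree _)) (U.alt.comp ι))
    (fun a b c h => ?_) σ
  show C.proj (phi C hk U hfree _ _) = U.alt (ι _)
  rw [phi_cyc C hk U hfree _ h]
  refine Equiv.ext fun p => ?_
  have hq : (⟨Subtype.val '' A, isClopen_image hA⟩ : Clopens S.X) ⊓ baseC U ≤ baseC U :=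
    inf_le_right
  by_cases hp : p ∈ Set.range U.emb
  · obtain ⟨⟨u, s⟩, rfl⟩ := hp
    rw [U.alt_emb]
    by_cases hu : u ∈ A
    · refine (proj_cfg_cell C hk U hq h s (x := u.1) ⟨⟨u, hu, rfl⟩, u.2⟩).trans ?_
      simp [ι, hu, pc, SFT.Tower.emb_apply]
    · refine (proj_cfg_out C hk U hq h s (x := u.1) u.2 ?_).trans ?_
      · rintro ⟨⟨y, hy, e⟩, -⟩
        exact hu (Subtype.ext e ▸ hy)
      · simp [ι, hu, pc, SFT.Tower.emb_apply]
  · rw [U.alt_of_notMem _ hp]
    refine proj_T_fix C hk (cfg_placed U hq h) fun i x hx e => hp ?_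
    exact ⟨(⟨x, hx.2⟩, ![a, b, c] i), by rw [e, pt_cfg]; rfl⟩

end Vale.Agent.P196.B
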